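import Vale.Agent.Lib.P368.Adv4.Defs

/-!
# P368, many entangling layers: a gate without flagged qubits in front of a map
-/

namespace Vale.Agent.Lib.P368

open Finset

variable {Q : Type} [Fintype Q] [DecidableEq Q]

/-- On an input `y` that vanishes on the qubits of `A`, the gate `A` moves past the matrices of
the other qubits. -/
theorem ag_term (ε : Q → Bool → Matrix Bool Bool ℂ) (A : Finset Q) (y : Q → Bool)
    (hy : ∀ p ∈ A, y p = false) (χ : StateVec Q) :
    czLayer {A} (oneQubitLayer (fun p => ε p (y p)) χ) =
      oneQubitLayer (fun p => if p ∈ A then 1 else ε p (y p))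
        (czLayer {A} (oneQubitLayer (fun p => if p ∈ A then ε p false else 1) χ)) := by
  have h1 : oneQubitLayer (fun p => ε p (y p)) χ =
      oneQubitLayer (fun p => if p ∈ A then 1 else ε p (y p))
        (oneQubitLayer (fun p => if p ∈ A then ε p false else 1) χ) := by
    rw [oneQubitLayer_comp]
    congr 1
    funext p
    by_cases h : p ∈ A
    · simp only [if_pos h, one_mul, hy p h]
    · simp only [if_neg h, mul_one]
  have h2 : ∀ S ∈ ({A} : Finset (Finset Q)), ∀ p ∈ S,
      (fun p => if p ∈ A then (1 : Matrix Bool Bool ℂ) else ε p (y p)) p = 1 := by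
    intro S hS p hp
    rw [Finset.mem_singleton] at hS
    subst hS
    simp only [if_pos hp]
  rw [h1, ← oneQubitLayer_czLayer_comm _ {A} h2]

/-- A gate `A` in front of `R` that contains no flagged qubit acts on the two vectors: it is
removed, the matrices on its qubits become the identity, and the vectors are replaced by the
gate applied to the vectors acted on by these matrices. -/
theorem gForm_absorb (τ : Q → Bool) (εa εb : Q → Bool → Matrix Bool Bool ℂ)
    (R : StateVec Q → StateVec Q) (A : Finset Q) (hτ : ∀ p ∈ A, τ p = false)
    (O : Q → Matrix Bool Bool ℂ) (φ ψ : StateVec Q) :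
    gForm τ εa εb (fun χ => R (czLayer {A} χ)) O φ ψ =
      gForm τ (fun p b => if p ∈ A then 1 else εa p b) (fun p b => if p ∈ A then 1 else εb p b)
        R O
        (czLayer {A} (oneQubitLayer (fun p => if p ∈ A then εa p false else 1) φ))
        (czLayer {A} (oneQubitLayer (fun p => if p ∈ A then εb p false else 1) ψ)) := by
  simp only [gForm]
  refine Finset.sum_congr rfl fun y _ => ?_
  by_cases hw : wprod τ y = 0
  · rw [hw, Complex.ofReal_zero, zero_mul, zero_mul]
  · have hy : ∀ p ∈ A, y p = false := by
      intro p hp
      have h1 : wt (τ p) (y p) ≠ 0 := by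
        unfold wprod at hw
        exact Finset.prod_ne_zero_iff.mp hw p (Finset.mem_univ p)
      rw [hτ p hp] at h1
      cases hyp : y p with
      | false => rfl
      | true =>
        rw [hyp] at h1
        exact absurd (by simp [wt]) h1
    rw [ag_term εa A y hy φ, ag_term εb A y hy ψ]

end Vale.Agent.Lib.P368
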