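import Vale.Agent.Lib.P368.Adv4.Defs

/-!
# P368, any number of entangling layers before the last two: expanding one gate in front of an
additive and homogeneous map
-/

namespace Vale.Agent.Lib.P368

open Finset

variable {Q : Type} [Fintype Q] [DecidableEq Q]

/-- The gate on `A` applied to the prepared vector. -/
theorem exg_pre (A : Finset Q) (ε : Q → Bool → Matrix Bool Bool ℂ) (y : Q → Bool)
    (φ : StateVec Q) :
    czLayer {A} (oneQubitLayer (fun p => ε p (y p)) φ) =
      fun z => oneQubitLayer (fun p => ε p (y p)) φ z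
        - 2 * oneQubitLayer (fun p => projOn A ε p (y p)) φ z := by
  have hm : (fun p => gp_P A p * ε p (y p)) = (fun p => projOn A ε p (y p)) := by
    funext p
    unfold gp_P projOn
    split_ifs <;> simp
  rw [gp_cz_eq, oneQubitLayer_comp, hm]

/-- An additive and homogeneous map applied to a combination `a - 2 b`. -/
theorem exg_lin (R : StateVec Q → StateVec Q) (hR : IsLin R) (a b : StateVec Q) :
    R (fun z => a z - 2 * b z) = fun z => R a z - 2 * R b z := by
  have h1 : (fun z => a z - 2 * b z) = a + (-2 : ℂ) • b := by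
    funext z
    simp only [Pi.add_apply, Pi.smul_apply, smul_eq_mul]
    ring
  rw [h1, hR.1, hR.2]
  funext z
  simp only [Pi.add_apply, Pi.smul_apply, smul_eq_mul]
  ring

/-- Exchanging the two arguments conjugates the pairing. -/
theorem exg_ip_conj (a b : StateVec Q) : ip a b = (starRingEnd ℂ) (ip b a) := by
  unfold ip
  rw [map_sum]
  refine Finset.sum_congr rfl (fun z _ => ?_)
  simp [mul_comm]

/-- A gate `A` in front of an additive and homogeneous map `R` is expanded as the identity
minus twice the projector onto `1` on its qubits, on both sides. -/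
theorem gForm_expand (τ : Q → Bool) (εa εb : Q → Bool → Matrix Bool Bool ℂ)
    (R : StateVec Q → StateVec Q) (hR : IsLin R) (A : Finset Q)
    (O : Q → Matrix Bool Bool ℂ) (φ ψ : StateVec Q) :
    gForm τ εa εb (fun χ => R (czLayer {A} χ)) O φ ψ =
      gForm τ εa εb R O φ ψ
        - 2 * gForm τ εa (projOn A εb) R O φ ψ
        - 2 * gForm τ (projOn A εa) εb R O φ ψ
        + 4 * gForm τ (projOn A εa) (projOn A εb) R O φ ψ := by
  unfold gForm
  rw [Finset.mul_sum, Finset.mul_sum, Finset.mul_sum, ← Finset.sum_sub_distrib,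
    ← Finset.sum_sub_distrib, ← Finset.sum_add_distrib]
  refine Finset.sum_congr rfl (fun y _ => ?_)
  show ((wprod τ y : ℝ) : ℂ) *
      ip (R (czLayer {A} (oneQubitLayer (fun p => εa p (y p)) φ)))
        (oneQubitLayer O (R (czLayer {A} (oneQubitLayer (fun p => εb p (y p)) ψ)))) = _
  rw [exg_pre A εa y φ, exg_pre A εb y ψ, exg_lin R hR, exg_lin R hR,
    gp_layer_sub, gp_ip_sub_left, gp_ip_sub_right, gp_ip_sub_right]
  ring

/-- Exchanging the two sides conjugates the form, when the matrices `O p` are self-adjoint. -/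
theorem gForm_conj (τ : Q → Bool) (εa εb : Q → Bool → Matrix Bool Bool ℂ)
    (R : StateVec Q → StateVec Q) (O : Q → Matrix Bool Bool ℂ)
    (hO : ∀ p, (O p).conjTranspose = O p) (φ ψ : StateVec Q) :
    gForm τ εa εb R O φ ψ = (starRingEnd ℂ) (gForm τ εb εa R O ψ φ) := by
  unfold gForm
  rw [map_sum]
  refine Finset.sum_congr rfl (fun y _ => ?_)
  have hO' : (fun p => (O p).conjTranspose) = O := funext hO
  rw [map_mul, Complex.conj_ofReal, ← exg_ip_conj, ip_adj O, hO']

end Vale.Agent.Lib.P368
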