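import Vale.Agent.Lib.P368.Adv4.Defs

/-!
# P368, many entangling layers: the product of the factors of the gates under the loss of
flags
-/

namespace Vale.Agent.Lib.P368

open Finset

variable {Q : Type} [Fintype Q] [DecidableEq Q]

theorem one_le_gth (θ : ℝ) (hθ : 0 ≤ θ) (k : ℕ) : 1 ≤ gth θ k := by
  unfold gth
  split_ifs
  · exact le_refl 1
  · have h : 0 ≤ 8 * θ ^ k := by positivity
    linarith

theorem gthProd_nonneg (θ : ℝ) (hθ : 0 ≤ θ) (τ : Q → Bool)
    (mids : List (Finset (Finset Q) × (Q → Matrix Bool Bool ℂ))) : 0 ≤ gthProd θ τ mids := by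
  unfold gthProd
  apply List.prod_nonneg
  intro x hx
  obtain ⟨r, _, rfl⟩ := List.mem_map.mp hx
  exact Finset.prod_nonneg (fun A _ => le_trans zero_le_one (one_le_gth θ hθ _))

theorem gthProd_cons (θ : ℝ) (τ : Q → Bool) (L0 : Finset (Finset Q))
    (V : Q → Matrix Bool Bool ℂ) (rest : List (Finset (Finset Q) × (Q → Matrix Bool Bool ℂ))) :
    gthProd θ τ ((L0, V) :: rest) =
      (∏ A ∈ L0, gth θ (A.filter fun p => τ p = true).card) * gthProd θ τ rest := by
  unfold gthProd
  rw [List.map_cons, List.prod_cons]

/-- The factors of the gates disjoint from `A` do not change when the flagged qubits of `A`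
lose their flags. -/
theorem gthRound_unflag_disjoint (θ : ℝ) (τ : Q → Bool) (A : Finset Q)
    (L : Finset (Finset Q)) (hdisj : ∀ S ∈ L, Disjoint S A) :
    ∏ S ∈ L, gth θ (S.filter fun p =>
        (if p ∈ A.filter (fun p => τ p = true) then false else τ p) = true).card =
      ∏ S ∈ L, gth θ (S.filter fun p => τ p = true).card := by
  refine Finset.prod_congr rfl (fun S hS => ?_)
  have e : (S.filter fun p =>
      (if p ∈ A.filter (fun p => τ p = true) then false else τ p) = true)
      = S.filter fun p => τ p = true := by
    apply Finset.filter_congr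
    intro p hp
    have hpA : p ∉ A := Finset.disjoint_left.mp (hdisj S hS) hp
    have hpF : p ∉ A.filter (fun p => τ p = true) := fun h => hpA (Finset.mem_filter.mp h).1
    rw [if_neg hpF]
  rw [e]

/-- One gate: losing `j` of its `m + j` flagged qubits costs at most the factor `1 / θ^j`. -/
theorem pt_gate (θ : ℝ) (hθ0 : 0 ≤ θ) (hθ1 : θ ≤ 1) (m j : ℕ) :
    gth θ m * θ ^ j ≤ gth θ (m + j) := by
  have hj : θ ^ j ≤ 1 := pow_le_one₀ hθ0 hθ1
  have hj0 : 0 ≤ θ ^ j := pow_nonneg hθ0 j
  by_cases hm : m = 0
  · subst hm
    have h1 := one_le_gth θ hθ0 (0 + j)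
    have h0 : gth θ 0 = 1 := by simp [gth]
    rw [h0, one_mul]
    linarith
  · have hmj : m + j ≠ 0 := by omega
    have e1 : gth θ m = 1 + 8 * θ ^ m := by
      unfold gth
      rw [if_neg hm]
    have e2 : gth θ (m + j) = 1 + 8 * θ ^ (m + j) := by
      unfold gth
      rw [if_neg hmj]
    rw [e1, e2, pow_add]
    have e3 : (1 + 8 * θ ^ m) * θ ^ j = θ ^ j + 8 * (θ ^ m * θ ^ j) := by ring
    rw [e3]
    linarith

/-- One round: when the qubits of a set `C` of flagged qubits lose their flags, the product
of the factors of the gates of a round grows at most by the factor `1 / θ^|C|`. -/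
theorem pt_round (θ : ℝ) (hθ0 : 0 < θ) (hθ1 : θ ≤ 1) (τ : Q → Bool) (C : Finset Q)
    (hC : ∀ p ∈ C, τ p = true) (L : Finset (Finset Q))
    (hL : (L : Set (Finset Q)).PairwiseDisjoint id) :
    (∏ S ∈ L, gth θ (S.filter fun p => (if p ∈ C then false else τ p) = true).card)
        * θ ^ C.card
      ≤ ∏ S ∈ L, gth θ (S.filter fun p => τ p = true).card := by
  have hcard : ∀ S : Finset Q,
      (S.filter fun p => (if p ∈ C then false else τ p) = true).card
        + (S.filter fun p => p ∈ C).card = (S.filter fun p => τ p = true).card := by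
    intro S
    have h := Finset.card_filter_add_card_filter_not (s := S.filter fun p => τ p = true)
      (fun p => p ∈ C)
    have e1 : (S.filter fun p => τ p = true).filter (fun p => p ∈ C)
        = S.filter fun p => p ∈ C := by
      rw [Finset.filter_filter]
      apply Finset.filter_congr
      intro p _
      constructor
      · exact fun h => h.2
      · exact fun h => ⟨hC p h, h⟩
    have e2 : (S.filter fun p => τ p = true).filter (fun p => ¬ p ∈ C)
        = S.filter fun p => (if p ∈ C then false else τ p) = true := by
      rw [Finset.filter_filter]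
      apply Finset.filter_congr
      intro p _
      by_cases hp : p ∈ C
      · simp [hp]
      · simp [hp]
    rw [e1, e2] at h
    omega
  have hb := Finset.card_biUnion (s := L) (t := fun S : Finset Q => S.filter fun p => p ∈ C)
    (fun x hx y hy hne => Finset.disjoint_filter_filter (hL hx hy hne))
  have hsum : ∑ S ∈ L, (S.filter fun p => p ∈ C).card ≤ C.card := by
    calc ∑ S ∈ L, (S.filter fun p => p ∈ C).card
        = (L.biUnion fun S : Finset Q => S.filter fun p => p ∈ C).card := hb.symm
      _ ≤ C.card := by
        apply Finset.card_le_card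
        intro p hp
        obtain ⟨S, _, hpS⟩ := Finset.mem_biUnion.mp hp
        exact (Finset.mem_filter.mp hpS).2
  have hpow : θ ^ C.card ≤ θ ^ (∑ S ∈ L, (S.filter fun p => p ∈ C).card) :=
    pow_le_pow_of_le_one hθ0.le hθ1 hsum
  have hnn : 0 ≤ ∏ S ∈ L,
      gth θ (S.filter fun p => (if p ∈ C then false else τ p) = true).card :=
    Finset.prod_nonneg (fun S _ => le_trans zero_le_one (one_le_gth θ hθ0.le _))
  calc (∏ S ∈ L, gth θ (S.filter fun p => (if p ∈ C then false else τ p) = true).card)
        * θ ^ C.card
      ≤ (∏ S ∈ L, gth θ (S.filter fun p => (if p ∈ C then false else τ p) = true).card)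
        * θ ^ (∑ S ∈ L, (S.filter fun p => p ∈ C).card) :=
        mul_le_mul_of_nonneg_left hpow hnn
    _ = ∏ S ∈ L, (gth θ (S.filter fun p => (if p ∈ C then false else τ p) = true).card
        * θ ^ (S.filter fun p => p ∈ C).card) := by
        rw [Finset.prod_mul_distrib, Finset.prod_pow_eq_pow_sum]
    _ ≤ ∏ S ∈ L, gth θ (S.filter fun p => τ p = true).card := by
        apply Finset.prod_le_prod
        · intro S _
          exact mul_nonneg (le_trans zero_le_one (one_le_gth θ hθ0.le _))
            (pow_nonneg hθ0.le _)
        · intro S _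
          rw [← hcard S]
          exact pt_gate θ hθ0.le hθ1 _ _

/-- When the `k` flagged qubits of `A` lose their flags, the product of the factors of the
gates grows at most by the factor `1 / θ^k` for each round that contains a gate. -/
theorem gthProd_unflag_le (θ : ℝ) (hθ0 : 0 < θ) (hθ1 : θ ≤ 1) (τ : Q → Bool) (A : Finset Q)
    (mids : List (Finset (Finset Q) × (Q → Matrix Bool Bool ℂ)))
    (hmids : ∀ r ∈ mids, (r.1 : Set (Finset Q)).PairwiseDisjoint id) :
    gthProd θ (fun p => if p ∈ A.filter (fun p => τ p = true) then false else τ p) mids *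
        (θ ^ (A.filter fun p => τ p = true).card) ^ entRounds mids ≤
      gthProd θ τ mids := by
  have hC : ∀ p ∈ A.filter (fun p => τ p = true), τ p = true :=
    fun p hp => (Finset.mem_filter.mp hp).2
  induction mids with
  | nil => simp [gthProd, entRounds]
  | cons r rest ih =>
    obtain ⟨L0, V⟩ := r
    have hr : (L0 : Set (Finset Q)).PairwiseDisjoint id :=
      hmids (L0, V) List.mem_cons_self
    have ih' := ih (fun r' hr' => hmids r' (List.mem_cons_of_mem _ hr'))
    rw [gthProd_cons, gthProd_cons]
    have hround := pt_round θ hθ0 hθ1 τ (A.filter fun p => τ p = true) hC L0 hr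
    have hk0 : 0 ≤ θ ^ (A.filter fun p => τ p = true).card := pow_nonneg hθ0.le _
    by_cases hemp : L0 = ∅
    · have he : entRounds ((L0, V) :: rest) = entRounds rest := by
        simp [entRounds, hemp]
      rw [he, hemp, Finset.prod_empty, Finset.prod_empty, one_mul, one_mul]
      exact ih'
    · have he : entRounds ((L0, V) :: rest) = entRounds rest + 1 := by
        simp [entRounds, hemp]
      rw [he, pow_succ]
      have hG : 0 ≤ gthProd θ
          (fun p => if p ∈ A.filter (fun p => τ p = true) then false else τ p) rest
          * (θ ^ (A.filter fun p => τ p = true).card) ^ entRounds rest :=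
        mul_nonneg (gthProd_nonneg θ hθ0.le _ rest) (pow_nonneg hk0 _)
      have hP : 0 ≤ ∏ S ∈ L0, gth θ (S.filter fun p => τ p = true).card :=
        Finset.prod_nonneg (fun S _ => le_trans zero_le_one (one_le_gth θ hθ0.le _))
      have hmul := mul_le_mul hround ih' hG hP
      calc (∏ S ∈ L0, gth θ (S.filter fun p =>
              (if p ∈ A.filter (fun p => τ p = true) then false else τ p) = true).card)
            * gthProd θ
              (fun p => if p ∈ A.filter (fun p => τ p = true) then false else τ p) rest
            * ((θ ^ (A.filter fun p => τ p = true).card) ^ entRounds rest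
              * θ ^ (A.filter fun p => τ p = true).card)
          = (∏ S ∈ L0, gth θ (S.filter fun p =>
              (if p ∈ A.filter (fun p => τ p = true) then false else τ p) = true).card)
              * θ ^ (A.filter fun p => τ p = true).card
            * (gthProd θ
              (fun p => if p ∈ A.filter (fun p => τ p = true) then false else τ p) rest
              * (θ ^ (A.filter fun p => τ p = true).card) ^ entRounds rest) := by ring
        _ ≤ (∏ S ∈ L0, gth θ (S.filter fun p => τ p = true).card) * gthProd θ τ rest := hmul

end Vale.Agent.Lib.P368
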