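import Vale.Agent.Lib.P368.Adv4.Defs

/-!
# P368, many entangling layers: summing the bits of flagged qubits whose first side is a scalar
times a fixed matrix
-/

namespace Vale.Agent.Lib.P368

open Finset

variable {Q : Type} [Fintype Q] [DecidableEq Q]

/-- The pairing through the map `R` once the matrices on the qubits of `C` are removed from
the second side and replaced by `B` on the first side. -/
noncomputable def ug_Phi (εa εb : Q → Bool → Matrix Bool Bool ℂ) (R : StateVec Q → StateVec Q)
    (O : Q → Matrix Bool Bool ℂ) (C : Finset Q) (B : Q → Matrix Bool Bool ℂ) (φ : StateVec Q)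
    (y : Q → Bool) (χ : StateVec Q) : ℂ :=
  ip (R (oneQubitLayer (fun p => if p ∈ C then B p else εa p (y p)) φ))
    (oneQubitLayer O (R (oneQubitLayer (fun p => if p ∈ C then 1 else εb p (y p)) χ)))

theorem ug_Phi_add (εa εb : Q → Bool → Matrix Bool Bool ℂ) (R : StateVec Q → StateVec Q)
    (hR : IsLin R) (O : Q → Matrix Bool Bool ℂ) (C : Finset Q) (B : Q → Matrix Bool Bool ℂ)
    (φ : StateVec Q) (y : Q → Bool) (a b : StateVec Q) :
    ug_Phi εa εb R O C B φ y (a + b)
      = ug_Phi εa εb R O C B φ y a + ug_Phi εa εb R O C B φ y b := by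
  unfold ug_Phi
  rw [pe_layer_add, hR.1, pe_layer_add, pe_ip_add]

theorem ug_Phi_smul (εa εb : Q → Bool → Matrix Bool Bool ℂ) (R : StateVec Q → StateVec Q)
    (hR : IsLin R) (O : Q → Matrix Bool Bool ℂ) (C : Finset Q) (B : Q → Matrix Bool Bool ℂ)
    (φ : StateVec Q) (y : Q → Bool) (t : ℂ) (a : StateVec Q) :
    ug_Phi εa εb R O C B φ y (t • a) = t * ug_Phi εa εb R O C B φ y a := by
  unfold ug_Phi
  rw [pe_layer_smul, hR.2, pe_layer_smul, pe_ip_smul]

theorem ug_Phi_loc (εa εb : Q → Bool → Matrix Bool Bool ℂ) (R : StateVec Q → StateVec Q)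
    (O : Q → Matrix Bool Bool ℂ) (C : Finset Q) (B : Q → Matrix Bool Bool ℂ)
    (φ : StateVec Q) (y y' : Q → Bool) (h : ∀ p, p ∉ C → y p = y' p) :
    ug_Phi εa εb R O C B φ y = ug_Phi εa εb R O C B φ y' := by
  have he1 : (fun p => if p ∈ C then B p else εa p (y p)) =
      fun p => if p ∈ C then B p else εa p (y' p) := by
    funext p
    by_cases hp : p ∈ C
    · simp [hp]
    · simp [hp, h p hp]
  have he2 : (fun p => if p ∈ C then (1 : Matrix Bool Bool ℂ) else εb p (y p)) =
      fun p => if p ∈ C then 1 else εb p (y' p) := by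
    funext p
    by_cases hp : p ∈ C
    · simp [hp]
    · simp [hp, h p hp]
  funext χ
  unfold ug_Phi
  rw [he1, he2]

/-- One term of the form, with the scalars of the first side moved to the second side. -/
theorem ug_term (εa εb : Q → Bool → Matrix Bool Bool ℂ) (R : StateVec Q → StateVec Q)
    (hR : IsLin R) (O : Q → Matrix Bool Bool ℂ) (C : Finset Q) (s : Q → Bool → ℂ)
    (B : Q → Matrix Bool Bool ℂ) (ha : ∀ p ∈ C, ∀ b, εa p b = s p b • B p)
    (φ ψ : StateVec Q) (y : Q → Bool) :
    ip (R (oneQubitLayer (fun p => εa p (y p)) φ))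
        (oneQubitLayer O (R (oneQubitLayer (fun p => εb p (y p)) ψ)))
      = ug_Phi εa εb R O C B φ y (oneQubitLayer
          (fun p => if p ∈ C then (starRingEnd ℂ) (s p (y p)) • εb p (y p) else 1) ψ) := by
  have h1 : (fun p => εa p (y p)) = fun p =>
      (if p ∈ C then s p (y p) else 1) • (if p ∈ C then B p else εa p (y p)) := by
    funext p
    by_cases hp : p ∈ C
    · simp only [hp, if_true]
      exact ha p hp (y p)
    · simp only [hp, if_false, one_smul]
  have h2 : oneQubitLayer (fun p => εb p (y p)) ψ =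
      oneQubitLayer (fun p => if p ∈ C then 1 else εb p (y p))
        (oneQubitLayer (fun p => if p ∈ C then εb p (y p) else 1) ψ) := by
    rw [oneQubitLayer_comp]
    congr 1
    funext p
    by_cases hp : p ∈ C
    · simp only [hp, if_true, one_mul]
    · simp only [hp, if_false, mul_one]
  have h3 : (fun p => if p ∈ C then (starRingEnd ℂ) (s p (y p)) • εb p (y p)
        else (1 : Matrix Bool Bool ℂ)) = fun p =>
      (starRingEnd ℂ) (if p ∈ C then s p (y p) else 1) •
        (if p ∈ C then εb p (y p) else 1) := by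
    funext p
    by_cases hp : p ∈ C
    · simp only [hp, if_true]
    · simp only [hp, if_false, map_one, one_smul]
  rw [h1, uf_layer_smul_fam, hR.2, uf_ip_smul_left, h2, h3,
    uf_layer_smul_fam, ug_Phi_smul εa εb R hR, ← map_prod (starRingEnd ℂ)]
  rfl

/-- If on the flagged qubits of `C` the matrices of the first side are scalars `s p b` times
fixed matrices `B p`, the bits of these qubits can be summed: the qubits of `C` lose their
flags, the first side keeps `B p` and the second side gets the signed sum of the matrices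
`conj (s p b) • εb p b`.  The map `R` is additive and homogeneous. -/
theorem gForm_unflag (τ : Q → Bool) (εa εb : Q → Bool → Matrix Bool Bool ℂ)
    (R : StateVec Q → StateVec Q) (hR : IsLin R)
    (O : Q → Matrix Bool Bool ℂ) (C : Finset Q) (s : Q → Bool → ℂ)
    (B : Q → Matrix Bool Bool ℂ) (hC : ∀ p ∈ C, τ p = true)
    (ha : ∀ p ∈ C, ∀ b, εa p b = s p b • B p) (φ ψ : StateVec Q) :
    gForm τ εa εb R O φ ψ =
      gForm (fun p => if p ∈ C then false else τ p)
        (fun p b => if p ∈ C then B p else εa p b)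
        (fun p b => if p ∈ C then
          ∑ c : Bool, ((wt true c : ℝ) : ℂ) • ((starRingEnd ℂ) (s p c) • εb p c) else εb p b)
        R O φ ψ := by
  have key := sum_wprod_layer τ C (fun p b => (starRingEnd ℂ) (s p b) • εb p b)
    (ug_Phi εa εb R O C B φ) (ug_Phi_add εa εb R hR O C B φ)
    (ug_Phi_smul εa εb R hR O C B φ) (ug_Phi_loc εa εb R O C B φ) ψ
  have hlhs : gForm τ εa εb R O φ ψ = ∑ y : Q → Bool, ((wprod τ y : ℝ) : ℂ) *
      ug_Phi εa εb R O C B φ y (oneQubitLayer
        (fun p => if p ∈ C then (starRingEnd ℂ) (s p (y p)) • εb p (y p) else 1) ψ) := by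
    unfold gForm
    exact Finset.sum_congr rfl (fun y _ => by rw [ug_term εa εb R hR O C s B ha φ ψ y])
  have hrhs : gForm (fun p => if p ∈ C then false else τ p)
      (fun p b => if p ∈ C then B p else εa p b)
      (fun p b => if p ∈ C then
        ∑ c : Bool, ((wt true c : ℝ) : ℂ) • ((starRingEnd ℂ) (s p c) • εb p c) else εb p b)
      R O φ ψ = ∑ y : Q → Bool,
        ((wprod (fun p => if p ∈ C then false else τ p) y : ℝ) : ℂ) *
          ug_Phi εa εb R O C B φ y (oneQubitLayer (fun p => if p ∈ C then
            ∑ b : Bool, ((wt (τ p) b : ℝ) : ℂ) • ((starRingEnd ℂ) (s p b) • εb p b)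
            else 1) ψ) := by
    unfold gForm
    refine Finset.sum_congr rfl (fun y _ => ?_)
    have h4 : oneQubitLayer (fun p => if p ∈ C then
          ∑ c : Bool, ((wt true c : ℝ) : ℂ) • ((starRingEnd ℂ) (s p c) • εb p c)
          else εb p (y p)) ψ =
        oneQubitLayer (fun p => if p ∈ C then 1 else εb p (y p))
          (oneQubitLayer (fun p => if p ∈ C then
            ∑ b : Bool, ((wt (τ p) b : ℝ) : ℂ) • ((starRingEnd ℂ) (s p b) • εb p b)
            else 1) ψ) := by
      rw [oneQubitLayer_comp]
      congr 1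
      funext p
      by_cases hp : p ∈ C
      · simp only [hp, if_true, one_mul, hC p hp]
      · simp only [hp, if_false, mul_one]
    unfold ug_Phi
    rw [← h4]
  rw [hlhs, hrhs]
  exact key

end Vale.Agent.Lib.P368
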