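import Vale.Agent.Lib.P368.Adv4.Lin
import Vale.Agent.Lib.P368.Adv4.ExpandG
import Vale.Agent.Lib.P368.Adv4.UnflagG
import Vale.Agent.Lib.P368.Adv4.AbsorbG
import Vale.Agent.Lib.P368.Adv4.Potential

/-!
# P368, many entangling layers: the bound on the signed form through the rounds
-/

namespace Vale.Agent.Lib.P368

open Finset

variable {Q : Type} [Fintype Q] [DecidableEq Q]

/-- The terms of the expansion with the projector on the first side: the flagged qubits of the
gate lose their flags.  The factor `G` of the bound is any function of the flags. -/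
theorem bg_pterm (R : StateVec Q → StateVec Q) (hR : IsLin R)
    (O : Q → Matrix Bool Bool ℂ) (G : (Q → Bool) → ℝ)
    (ih : ∀ (τ : Q → Bool) (εa εb : Q → Bool → Matrix Bool Bool ℂ), Adm2 τ εa εb →
      ∀ φ ψ : StateVec Q, ‖gForm τ εa εb R O φ ψ‖ ≤
        G τ * Real.sqrt 2 ^ (univ.filter fun p => τ p = true).card *
          (Real.sqrt (normSqSum φ) * Real.sqrt (normSqSum ψ)))
    (A : Finset Q)
    (τ : Q → Bool) (εa εb : Q → Bool → Matrix Bool Bool ℂ) (hadm : Adm2 τ εa εb)
    (X : Q → Bool → Matrix Bool Bool ℂ) (hX : X = εb ∨ X = projOn A εb) (φ ψ : StateVec Q) :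
    ‖gForm τ (projOn A εa) X R O φ ψ‖ ≤
      G (fun p => if p ∈ A.filter (fun q => τ q = true) then false else τ p) *
        Real.sqrt 2 ^ (univ.filter fun p =>
          (if p ∈ A.filter (fun q => τ q = true) then false else τ p) = true).card *
        (Real.sqrt (normSqSum φ) * Real.sqrt (normSqSum ψ)) := by
  have hex : ∀ p, ∃ u : Matrix Bool Bool ℂ, τ p = true →
      (u ∈ Matrix.unitaryGroup Bool ℂ ∧ (∀ b, εa p b = colMat u b) ∧ ∀ b, εb p b = colMat u b) := by
    intro p
    by_cases hp : τ p = true
    · obtain ⟨u, hu⟩ := (hadm p).1 hp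
      exact ⟨u, fun _ => hu⟩
    · exact ⟨1, fun h => absurd h hp⟩
  choose u hu using hex
  have hCmem : ∀ p, p ∈ A.filter (fun q => τ q = true) ↔ p ∈ A ∧ τ p = true := by
    intro p
    exact Finset.mem_filter
  have hCt : ∀ p ∈ A.filter (fun q => τ q = true), τ p = true := fun p hp => ((hCmem p).mp hp).2
  have hCA : ∀ p ∈ A.filter (fun q => τ q = true), p ∈ A := fun p hp => ((hCmem p).mp hp).1
  have ha : ∀ p ∈ A.filter (fun q => τ q = true), ∀ b,
      projOn A εa p b = (fun p b => u p true b) p b • (fun _ => e10) p := by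
    intro p hp b
    unfold projOn
    rw [if_pos (hCA p hp), (hu p (hCt p hp)).2.1 b, projOne_mul_colMat]
  rw [gForm_unflag τ (projOn A εa) X R hR O (A.filter (fun q => τ q = true))
    (fun p b => u p true b) (fun _ => e10) hCt ha φ ψ]
  have hXA : ∀ p, p ∉ A → ∀ b, X p b = εb p b := by
    intro p hp b
    rcases hX with h | h
    · rw [h]
    · rw [h]
      unfold projOn
      rw [if_neg hp]
  have hadm' : Adm2 (fun p => if p ∈ A.filter (fun q => τ q = true) then false else τ p)
      (fun p b => if p ∈ A.filter (fun q => τ q = true) then (fun _ => e10) p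
        else projOn A εa p b)
      (fun p b => if p ∈ A.filter (fun q => τ q = true) then
        ∑ c : Bool, ((wt true c : ℝ) : ℂ) •
          ((starRingEnd ℂ) ((fun p b => u p true b) p c) • X p c) else X p b) := by
    intro p
    by_cases hpC : p ∈ A.filter (fun q => τ q = true)
    · refine ⟨fun h => ?_, fun _ => ?_⟩
      · simp [hpC] at h
      · have hpA := hCA p hpC
        have hpt := hCt p hpC
        simp only [hpC, if_true]
        refine ⟨isContr_e10, ?_⟩
        rcases hX with h | h
        · have e : (∑ c : Bool, ((wt true c : ℝ) : ℂ) •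
              ((starRingEnd ℂ) (u p true c) • X p c)) = nMat (u p) := by
            unfold nMat
            refine Finset.sum_congr rfl (fun c _ => ?_)
            rw [h, (hu p hpt).2.2 c]
          rw [e]
          exact isContr_nMat (u p) (hu p hpt).1
        · have e : (∑ c : Bool, ((wt true c : ℝ) : ℂ) •
              ((starRingEnd ℂ) (u p true c) • X p c)) = ppMat (u p) := by
            unfold ppMat
            refine Finset.sum_congr rfl (fun c _ => ?_)
            rw [h]
            unfold projOn
            rw [if_pos hpA, (hu p hpt).2.2 c, projOne_mul_colMat]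
          rw [e]
          exact isContr_ppMat (u p) (hu p hpt).1
    · simp only [hpC, if_false]
      refine ⟨fun h => ?_, fun h => ?_⟩
      · have hpA : p ∉ A := fun hA => hpC ((hCmem p).mpr ⟨hA, h⟩)
        refine ⟨u p, (hu p h).1, fun b => ?_, fun b => ?_⟩
        · unfold projOn
          rw [if_neg hpA]
          exact (hu p h).2.1 b
        · rw [hXA p hpA b]
          exact (hu p h).2.2 b
      · have hc := (hadm p).2 h
        have h1 : IsContr (projOn A εa p false) := by
          unfold projOn
          by_cases hpA : p ∈ A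
          · rw [if_pos hpA]
            exact isContr_mul _ _ isContr_projOne hc.1
          · rw [if_neg hpA]
            exact hc.1
        refine ⟨h1, ?_⟩
        rcases hX with h | h
        · rw [h]
          exact hc.2
        · rw [h]
          unfold projOn
          by_cases hpA : p ∈ A
          · rw [if_pos hpA]
            exact isContr_mul _ _ isContr_projOne hc.2
          · rw [if_neg hpA]
            exact hc.2
  exact ih _ _ _ hadm' φ ψ

/-- The bound for one more round in front, by induction on the gates of this round. -/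
theorem bg_inner (θ : ℝ) (hθ0 : 0 < θ) (hθ1 : θ ≤ 1) (L1 : Finset (Finset Q))
    (O : Q → Matrix Bool Bool ℂ) (hO : ∀ p, (O p).conjTranspose = O p)
    (V : Q → Matrix Bool Bool ℂ) (hV : ∀ p, V p ∈ Matrix.unitaryGroup Bool ℂ)
    (rest : List (Finset (Finset Q) × (Q → Matrix Bool Bool ℂ)))
    (hrest : ∀ r ∈ rest, (r.1 : Set (Finset Q)).PairwiseDisjoint id)
    (IHrest : ∀ (τ : Q → Bool) (εa εb : Q → Bool → Matrix Bool Bool ℂ), Adm2 τ εa εb →
      ∀ φ ψ : StateVec Q,
      ‖gForm τ εa εb (fun χ => czLayer L1 (midRun rest χ)) O φ ψ‖ ≤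
        gthProd θ τ rest * Real.sqrt 2 ^ (univ.filter fun p => τ p = true).card *
          (Real.sqrt (normSqSum φ) * Real.sqrt (normSqSum ψ))) :
    ∀ (L0 : Finset (Finset Q)), (L0 : Set (Finset Q)).PairwiseDisjoint id →
      1 / Real.sqrt 2 ≤ θ ^ entRounds ((L0, V) :: rest) →
      ∀ (τ : Q → Bool) (εa εb : Q → Bool → Matrix Bool Bool ℂ), Adm2 τ εa εb →
      ∀ φ ψ : StateVec Q,
      ‖gForm τ εa εb (fun χ => czLayer L1 (midRun ((L0, V) :: rest) χ)) O φ ψ‖ ≤
        gthProd θ τ ((L0, V) :: rest) * Real.sqrt 2 ^ (univ.filter fun p => τ p = true).card *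
          (Real.sqrt (normSqSum φ) * Real.sqrt (normSqSum ψ)) := by
  intro L0
  induction L0 using Finset.induction_on with
  | empty =>
    intro _ _ τ εa εb hadm φ ψ
    have hfun : (fun χ : StateVec Q => czLayer L1 (midRun ((∅, V) :: rest) χ))
        = fun χ => (fun χ' => czLayer L1 (midRun rest χ')) (oneQubitLayer V χ) := by
      funext χ
      show czLayer L1 (midRun rest (oneQubitLayer V (czLayer ∅ χ)))
        = czLayer L1 (midRun rest (oneQubitLayer V χ))
      rw [czLayer_empty]
    rw [hfun, gForm_merge τ εa εb (fun χ' => czLayer L1 (midRun rest χ')) V O φ ψ]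
    have h := IHrest τ _ _ (adm2_mul τ εa εb V hV hadm) φ ψ
    rw [gthProd_cons, Finset.prod_empty, one_mul]
    exact h
  | insert A L0 hA ih =>
    intro hL hθD τ εa εb hadm φ ψ
    have hL' : (L0 : Set (Finset Q)).PairwiseDisjoint id :=
      Set.PairwiseDisjoint.subset hL (Finset.coe_subset.mpr (Finset.subset_insert _ _))
    have hdisj : ∀ S ∈ L0, Disjoint S A := by
      intro S hS
      have h := hL (Finset.mem_coe.mpr (Finset.mem_insert_of_mem hS))
        (Finset.mem_coe.mpr (Finset.mem_insert_self _ _)) (ne_of_mem_of_not_mem hS hA)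
      simpa [Function.onFun] using h
    have hs0 : (0 : ℝ) < Real.sqrt 2 := Real.sqrt_pos.mpr (by norm_num)
    have hE1 : entRounds ((insert A L0, V) :: rest) = entRounds rest + 1 := by
      unfold entRounds
      rw [List.filter_cons]
      simp [Finset.insert_ne_empty]
    have hE0 : entRounds ((L0, V) :: rest) ≤ entRounds rest + 1 := by
      unfold entRounds
      rw [List.filter_cons]
      split_ifs <;> simp
    rw [hE1] at hθD
    have hθ' : 1 / Real.sqrt 2 ≤ θ ^ entRounds ((L0, V) :: rest) :=
      le_trans hθD (pow_le_pow_of_le_one hθ0.le hθ1 hE0)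
    have ih' := ih hL' hθ'
    have hR : IsLin (fun χ' : StateVec Q => czLayer L1 (midRun ((L0, V) :: rest) χ')) :=
      isLin_czLayer_midRun L1 _
    have hfun : (fun χ : StateVec Q => czLayer L1 (midRun ((insert A L0, V) :: rest) χ))
        = fun χ => (fun χ' => czLayer L1 (midRun ((L0, V) :: rest) χ')) (czLayer {A} χ) := by
      funext χ
      show czLayer L1 (midRun rest (oneQubitLayer V (czLayer (insert A L0) χ)))
        = czLayer L1 (midRun rest (oneQubitLayer V (czLayer L0 (czLayer {A} χ))))
      rw [czLayer_insert A L0 hA]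
    have hG0 : 0 ≤ ∏ S ∈ L0, gth θ (S.filter fun p => τ p = true).card :=
      Finset.prod_nonneg (fun S _ => le_trans zero_le_one (one_le_gth θ hθ0.le _))
    have hGr : 0 ≤ gthProd θ τ rest := gthProd_nonneg θ hθ0.le τ rest
    have hgp : gthProd θ τ ((insert A L0, V) :: rest)
        = gth θ (A.filter fun p => τ p = true).card *
          ((∏ S ∈ L0, gth θ (S.filter fun p => τ p = true).card) * gthProd θ τ rest) := by
      rw [gthProd_cons, Finset.prod_insert hA]
      ring
    have hgp' : gthProd θ τ ((L0, V) :: rest)
        = (∏ S ∈ L0, gth θ (S.filter fun p => τ p = true).card) * gthProd θ τ rest :=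
      gthProd_cons θ τ L0 V rest
    by_cases hk : (A.filter fun p => τ p = true).card = 0
    · have hτA : ∀ p ∈ A, τ p = false := by
        intro p hp
        rw [Finset.card_eq_zero, Finset.filter_eq_empty_iff] at hk
        have h := hk hp
        cases h' : τ p
        · rfl
        · exact absurd h' h
      rw [hfun, gForm_absorb τ εa εb
        (fun χ' => czLayer L1 (midRun ((L0, V) :: rest) χ')) A hτA O φ ψ]
      have hadm' : Adm2 τ (fun p b => if p ∈ A then 1 else εa p b)
          (fun p b => if p ∈ A then 1 else εb p b) := by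
        intro p
        by_cases hp : p ∈ A
        · refine ⟨fun h => ?_, fun _ => ?_⟩
          · rw [hτA p hp] at h
            exact absurd h (by simp)
          · simp only [hp, if_true]
            exact ⟨isContr_one, isContr_one⟩
        · simp only [hp, if_false]
          exact hadm p
      have h1 := ih' τ _ _ hadm'
        (czLayer {A} (oneQubitLayer (fun p => if p ∈ A then εa p false else 1) φ))
        (czLayer {A} (oneQubitLayer (fun p => if p ∈ A then εb p false else 1) ψ))
      have hφ : normSqSum (czLayer {A}
          (oneQubitLayer (fun p => if p ∈ A then εa p false else 1) φ)) ≤ normSqSum φ := by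
        rw [normSqSum_czLayer]
        apply normSqSum_oneQubitLayer_le
        intro p
        by_cases hp : p ∈ A
        · simp only [hp, if_true]
          exact ((hadm p).2 (hτA p hp)).1
        · simp only [hp, if_false]
          exact isContr_one
      have hψ : normSqSum (czLayer {A}
          (oneQubitLayer (fun p => if p ∈ A then εb p false else 1) ψ)) ≤ normSqSum ψ := by
        rw [normSqSum_czLayer]
        apply normSqSum_oneQubitLayer_le
        intro p
        by_cases hp : p ∈ A
        · simp only [hp, if_true]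
          exact ((hadm p).2 (hτA p hp)).2
        · simp only [hp, if_false]
          exact isContr_one
      have hg0 : gth θ 0 = 1 := by simp [gth]
      rw [hgp, hk, hg0, one_mul, ← hgp']
      refine le_trans h1 ?_
      have hpos : 0 ≤ gthProd θ τ ((L0, V) :: rest) *
          Real.sqrt 2 ^ (univ.filter fun p => τ p = true).card := by
        rw [hgp']
        exact mul_nonneg (mul_nonneg hG0 hGr) (pow_nonneg hs0.le _)
      exact mul_le_mul_of_nonneg_left
        (mul_le_mul (Real.sqrt_le_sqrt hφ) (Real.sqrt_le_sqrt hψ) (Real.sqrt_nonneg _)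
          (Real.sqrt_nonneg _)) hpos
    · rw [hfun, gForm_expand τ εa εb
        (fun χ' => czLayer L1 (midRun ((L0, V) :: rest) χ')) hR A O φ ψ]
      have h11 := ih' τ εa εb hadm φ ψ
      have hP1 := bg_pterm (fun χ' => czLayer L1 (midRun ((L0, V) :: rest) χ')) hR O
        (fun τ => gthProd θ τ ((L0, V) :: rest)) ih' A τ εa εb hadm εb (Or.inl rfl) φ ψ
      have hPP := bg_pterm (fun χ' => czLayer L1 (midRun ((L0, V) :: rest) χ')) hR O
        (fun τ => gthProd θ τ ((L0, V) :: rest)) ih' A τ εa εb hadm (projOn A εb)
        (Or.inr rfl) φ ψ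
      have hadm_s : Adm2 τ εb εa := by
        intro p
        obtain ⟨h1, h2⟩ := hadm p
        refine ⟨fun h => ?_, fun h => ⟨(h2 h).2, (h2 h).1⟩⟩
        obtain ⟨u, hu, ha, hb⟩ := h1 h
        exact ⟨u, hu, hb, ha⟩
      have h1P' := bg_pterm (fun χ' => czLayer L1 (midRun ((L0, V) :: rest) χ')) hR O
        (fun τ => gthProd θ τ ((L0, V) :: rest)) ih' A τ εb εa hadm_s εa (Or.inl rfl) ψ φ
      have h1P : ‖gForm τ εa (projOn A εb)
          (fun χ' => czLayer L1 (midRun ((L0, V) :: rest) χ')) O φ ψ‖ ≤
          gthProd θ (fun p => if p ∈ A.filter (fun q => τ q = true) then false else τ p)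
            ((L0, V) :: rest) *
          Real.sqrt 2 ^ (univ.filter fun p =>
            (if p ∈ A.filter (fun q => τ q = true) then false else τ p) = true).card *
          (Real.sqrt (normSqSum φ) * Real.sqrt (normSqSum ψ)) := by
        rw [gForm_conj τ εa (projOn A εb) _ O hO φ ψ, RCLike.norm_conj,
          mul_comm (Real.sqrt (normSqSum φ))]
        exact h1P'
      have hG' : gthProd θ (fun p => if p ∈ A.filter (fun q => τ q = true) then false else τ p)
            ((L0, V) :: rest)
          = (∏ S ∈ L0, gth θ (S.filter fun p => τ p = true).card) *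
            gthProd θ (fun p => if p ∈ A.filter (fun q => τ q = true) then false else τ p)
              rest := by
        rw [gthProd_cons]
        exact congrArg (fun x => x *
          gthProd θ (fun p => if p ∈ A.filter (fun q => τ q = true) then false else τ p) rest)
          (gthRound_unflag_disjoint θ τ A L0 hdisj)
      rw [hG'] at hP1 hPP h1P
      have hkc := b3_count τ A
      have hn := b3_norm4
        (gForm τ εa εb (fun χ' => czLayer L1 (midRun ((L0, V) :: rest) χ')) O φ ψ)
        (gForm τ εa (projOn A εb) (fun χ' => czLayer L1 (midRun ((L0, V) :: rest) χ')) O φ ψ)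
        (gForm τ (projOn A εa) εb (fun χ' => czLayer L1 (midRun ((L0, V) :: rest) χ')) O φ ψ)
        (gForm τ (projOn A εa) (projOn A εb)
          (fun χ' => czLayer L1 (midRun ((L0, V) :: rest) χ')) O φ ψ)
      refine le_trans hn ?_
      have hpow : Real.sqrt 2 ^ (univ.filter fun p => τ p = true).card
          = Real.sqrt 2 ^ (univ.filter fun p =>
            (if p ∈ A.filter (fun q => τ q = true) then false else τ p) = true).card
            * Real.sqrt 2 ^ (A.filter fun p => τ p = true).card := by
        rw [← pow_add]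
        exact congrArg (fun n => Real.sqrt 2 ^ n) hkc.symm
      have hgf : gth θ (A.filter fun p => τ p = true).card
          = 1 + 8 * θ ^ (A.filter fun p => τ p = true).card := by
        unfold gth
        rw [if_neg hk]
      have hN : 0 ≤ Real.sqrt (normSqSum φ) * Real.sqrt (normSqSum ψ) :=
        mul_nonneg (Real.sqrt_nonneg _) (Real.sqrt_nonneg _)
      have hpk : 0 < Real.sqrt 2 ^ (A.filter fun p => τ p = true).card := pow_pos hs0 _
      have hθk : 0 < θ ^ (A.filter fun p => τ p = true).card := pow_pos hθ0 _
      have hGr'0 : 0 ≤ gthProd θ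
          (fun p => if p ∈ A.filter (fun q => τ q = true) then false else τ p) rest :=
        gthProd_nonneg θ hθ0.le _ rest
      have hpot := gthProd_unflag_le θ hθ0 hθ1 τ A rest hrest
      have h1 : 1 ≤ θ ^ (entRounds rest + 1) * Real.sqrt 2 := by
        rwa [div_le_iff₀ hs0] at hθD
      have h2 : 1 ≤ (θ ^ (entRounds rest + 1) * Real.sqrt 2)
          ^ (A.filter fun p => τ p = true).card := one_le_pow₀ h1
      have h3 : (θ ^ (entRounds rest + 1) * Real.sqrt 2) ^ (A.filter fun p => τ p = true).card
          = (θ ^ (A.filter fun p => τ p = true).card) ^ entRounds rest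
            * θ ^ (A.filter fun p => τ p = true).card
            * Real.sqrt 2 ^ (A.filter fun p => τ p = true).card := by
        rw [mul_pow, ← pow_mul, ← pow_mul, ← pow_add]
        have e : (entRounds rest + 1) * (A.filter fun p => τ p = true).card
            = (A.filter fun p => τ p = true).card * entRounds rest
              + (A.filter fun p => τ p = true).card := by ring
        rw [e]
      rw [h3] at h2
      have hA1 : gthProd θ
            (fun p => if p ∈ A.filter (fun q => τ q = true) then false else τ p) rest
          ≤ gthProd θ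
            (fun p => if p ∈ A.filter (fun q => τ q = true) then false else τ p) rest
            * ((θ ^ (A.filter fun p => τ p = true).card) ^ entRounds rest
            * θ ^ (A.filter fun p => τ p = true).card
            * Real.sqrt 2 ^ (A.filter fun p => τ p = true).card) := by
        have h := mul_le_mul_of_nonneg_left h2 hGr'0
        rwa [mul_one] at h
      have hA3 : (gthProd θ
            (fun p => if p ∈ A.filter (fun q => τ q = true) then false else τ p) rest
            * (θ ^ (A.filter fun p => τ p = true).card) ^ entRounds rest)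
            * (θ ^ (A.filter fun p => τ p = true).card
              * Real.sqrt 2 ^ (A.filter fun p => τ p = true).card)
          ≤ gthProd θ τ rest * (θ ^ (A.filter fun p => τ p = true).card
              * Real.sqrt 2 ^ (A.filter fun p => τ p = true).card) :=
        mul_le_mul_of_nonneg_right hpot (mul_nonneg hθk.le hpk.le)
      have hGr'le : gthProd θ
            (fun p => if p ∈ A.filter (fun q => τ q = true) then false else τ p) rest
          ≤ gthProd θ τ rest * (θ ^ (A.filter fun p => τ p = true).card
              * Real.sqrt 2 ^ (A.filter fun p => τ p = true).card) := by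
        refine le_trans hA1 (le_trans (le_of_eq ?_) hA3)
        ring
      have hc : 0 ≤ (∏ S ∈ L0, gth θ (S.filter fun p => τ p = true).card) *
          (Real.sqrt 2 ^ (univ.filter fun p =>
            (if p ∈ A.filter (fun q => τ q = true) then false else τ p) = true).card *
          (Real.sqrt (normSqSum φ) * Real.sqrt (normSqSum ψ))) :=
        mul_nonneg hG0 (mul_nonneg (pow_nonneg hs0.le _) hN)
      have hfin := mul_le_mul_of_nonneg_left hGr'le hc
      rw [hgp, hgf, hpow]
      rw [hgp', hpow] at h11
      nlinarith [hfin, h11, hP1, hPP, h1P]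

/-- The bound, in a form suited to the induction on the rounds. -/
theorem bg_main (θ : ℝ) (hθ0 : 0 < θ) (hθ1 : θ ≤ 1)
    (L1 : Finset (Finset Q)) (m : Q → Matrix Bool Bool ℂ)
    (hL1 : (L1 : Set (Finset Q)).PairwiseDisjoint id)
    (hm : ∀ p, IsRow (m p) ∨ m p ∈ Matrix.unitaryGroup Bool ℂ) :
    ∀ (mids : List (Finset (Finset Q) × (Q → Matrix Bool Bool ℂ))),
      (∀ r ∈ mids, (r.1 : Set (Finset Q)).PairwiseDisjoint id ∧
        ∀ p, r.2 p ∈ Matrix.unitaryGroup Bool ℂ) →
      1 / Real.sqrt 2 ≤ θ ^ entRounds mids →
      ∀ (τ : Q → Bool) (εa εb : Q → Bool → Matrix Bool Bool ℂ), Adm2 τ εa εb →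
      ∀ φ ψ : StateVec Q,
      ‖gForm τ εa εb (fun χ => czLayer L1 (midRun mids χ))
          (fun p => (m p).conjTranspose * m p) φ ψ‖ ≤
        gthProd θ τ mids * Real.sqrt 2 ^ (univ.filter fun p => τ p = true).card *
          (Real.sqrt (normSqSum φ) * Real.sqrt (normSqSum ψ)) := by
  intro mids
  induction mids with
  | nil =>
    intro _ _ τ εa εb hadm φ ψ
    have h := gForm_base τ εa εb L1 m hL1 hm hadm φ ψ
    have hg : gthProd θ τ ([] : List (Finset (Finset Q) × (Q → Matrix Bool Bool ℂ))) = 1 := by
      unfold gthProd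
      simp
    rw [hg, one_mul]
    exact h
  | cons r rest ihrest =>
    obtain ⟨L0, V⟩ := r
    intro hmids hθD
    have hV : ∀ p, V p ∈ Matrix.unitaryGroup Bool ℂ :=
      (hmids (L0, V) List.mem_cons_self).2
    have hL0 : (L0 : Set (Finset Q)).PairwiseDisjoint id :=
      (hmids (L0, V) List.mem_cons_self).1
    have hrest : ∀ r ∈ rest, (r.1 : Set (Finset Q)).PairwiseDisjoint id ∧
        ∀ p, r.2 p ∈ Matrix.unitaryGroup Bool ℂ :=
      fun r hr => hmids r (List.mem_cons_of_mem _ hr)
    have hErest : entRounds rest ≤ entRounds ((L0, V) :: rest) := by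
      unfold entRounds
      rw [List.filter_cons]
      split_ifs <;> simp
    have hθrest : 1 / Real.sqrt 2 ≤ θ ^ entRounds rest :=
      le_trans hθD (pow_le_pow_of_le_one hθ0.le hθ1 hErest)
    have hOs : ∀ p, ((fun p => (m p).conjTranspose * m p) p).conjTranspose
        = (fun p => (m p).conjTranspose * m p) p := by
      intro p
      simp [Matrix.conjTranspose_mul]
    exact bg_inner θ hθ0 hθ1 L1 _ hOs V hV rest (fun r hr => (hrest r hr).1)
      (ihrest hrest hθrest) L0 hL0 hθD

/-- The signed form through rounds of multi-controlled `Z` gates with pairwise disjoint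
supports and one-qubit unitaries, followed by one more layer `L1` of such gates: each gate of
the rounds with `k ≥ 1` flagged qubits costs a factor `1 + 8 θ^k`, where `θ` is any number in
`(0, 1]` whose power with exponent the number of rounds containing a gate is at least
`1 / sqrt 2`. -/
theorem gForm_bound (θ : ℝ) (hθ0 : 0 < θ) (hθ1 : θ ≤ 1)
    (L1 : Finset (Finset Q)) (m : Q → Matrix Bool Bool ℂ)
    (hL1 : (L1 : Set (Finset Q)).PairwiseDisjoint id)
    (hm : ∀ p, IsRow (m p) ∨ m p ∈ Matrix.unitaryGroup Bool ℂ)
    (mids : List (Finset (Finset Q) × (Q → Matrix Bool Bool ℂ)))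
    (hmids : ∀ r ∈ mids, (r.1 : Set (Finset Q)).PairwiseDisjoint id ∧
      ∀ p, r.2 p ∈ Matrix.unitaryGroup Bool ℂ)
    (hθD : 1 / Real.sqrt 2 ≤ θ ^ entRounds mids)
    (τ : Q → Bool) (εa εb : Q → Bool → Matrix Bool Bool ℂ) (hadm : Adm2 τ εa εb)
    (φ ψ : StateVec Q) :
    ‖gForm τ εa εb (fun χ => czLayer L1 (midRun mids χ))
        (fun p => (m p).conjTranspose * m p) φ ψ‖ ≤
      gthProd θ τ mids * Real.sqrt 2 ^ (univ.filter fun p => τ p = true).card *
        (Real.sqrt (normSqSum φ) * Real.sqrt (normSqSum ψ)) :=
  bg_main θ hθ0 hθ1 L1 m hL1 hm mids hmids hθD τ εa εb hadm φ ψ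

end Vale.Agent.Lib.P368
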