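import Vale.Agent.Lib.P368.Adv3.Final3

/-!
# P368, any number of entangling layers before the last two: definitions

Conventions used in the comments.  The form `gForm` is the signed sum, over the basis inputs
`y`, of the pairing of `R Λa_y φ` with `O R Λb_y ψ`, where `R` is any map of state vectors (in
the applications a composition of layers of multi-controlled `Z` gates and of layers of
one-qubit matrices) and `Λa_y`, `Λb_y` are the layers of the one-qubit matrices `εa p (y p)`,
`εb p (y p)`.  A round is a layer of multi-controlled `Z` gates followed by a layer of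
one-qubit matrices.
-/

namespace Vale.Agent.Lib.P368

open Finset

/-- The factor of a gate with `k` flagged qubits: `1` if `k = 0`, and `1 + 8 θ^k`
otherwise. -/
noncomputable def gth (θ : ℝ) (k : ℕ) : ℝ := if k = 0 then 1 else 1 + 8 * θ ^ k

section

variable {Q : Type} [Fintype Q] [DecidableEq Q]

/-- Additive and homogeneous maps of state vectors. -/
def IsLin (R : StateVec Q → StateVec Q) : Prop :=
  (∀ a b : StateVec Q, R (a + b) = R a + R b) ∧
    ∀ (t : ℂ) (a : StateVec Q), R (t • a) = t • R a

/-- The signed form through the map `R`. -/
noncomputable def gForm (τ : Q → Bool) (εa εb : Q → Bool → Matrix Bool Bool ℂ)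
    (R : StateVec Q → StateVec Q) (O : Q → Matrix Bool Bool ℂ) (φ ψ : StateVec Q) : ℂ :=
  ∑ y : Q → Bool, ((wprod τ y : ℝ) : ℂ) *
    ip (R (oneQubitLayer (fun p => εa p (y p)) φ))
      (oneQubitLayer O (R (oneQubitLayer (fun p => εb p (y p)) ψ)))

/-- The rounds applied in order: each is a layer of multi-controlled `Z` gates followed by a
layer of one-qubit matrices. -/
noncomputable def midRun (mids : List (Finset (Finset Q) × (Q → Matrix Bool Bool ℂ)))
    (χ : StateVec Q) : StateVec Q :=
  mids.foldl (fun χ r => oneQubitLayer r.2 (czLayer r.1 χ)) χ

/-- The number of rounds that contain a gate. -/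
def entRounds (mids : List (Finset (Finset Q) × (Q → Matrix Bool Bool ℂ))) : ℕ :=
  (mids.filter fun r => decide (r.1 ≠ ∅)).length

/-- The product over all gates of all rounds of the factors of their numbers of flagged
qubits. -/
noncomputable def gthProd (θ : ℝ) (τ : Q → Bool)
    (mids : List (Finset (Finset Q) × (Q → Matrix Bool Bool ℂ))) : ℝ :=
  (mids.map fun r => ∏ A ∈ r.1, gth θ (A.filter fun p => τ p = true).card).prod

end

end Vale.Agent.Lib.P368
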