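import Vale.Agent.Lib.P368.Adv4.Many
import Vale.Agent.Lib.P368.Adv4.MidForm

/-!
# P368, many entangling layers: the statement in the gate model of the problem
-/

namespace Vale.Agent.Lib.P368

open Finset

variable {Q : Type} [Fintype Q] [DecidableEq Q]

/-- A layer of one-qubit matrices after the rounds is one more round without gates. -/
theorem midRun_snoc (mids : List (Finset (Finset Q) × (Q → Matrix Bool Bool ℂ)))
    (first : Q → Matrix Bool Bool ℂ) (χ : StateVec Q) :
    oneQubitLayer first (midRun mids χ) = midRun (mids ++ [(∅, first)]) χ := by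
  unfold midRun
  rw [List.foldl_append, List.foldl_cons, List.foldl_nil, czLayer_empty]

theorem entRounds_snoc (mids : List (Finset (Finset Q) × (Q → Matrix Bool Bool ℂ)))
    (first : Q → Matrix Bool Bool ℂ) :
    entRounds (mids ++ [(∅, first)]) = entRounds mids := by
  unfold entRounds
  rw [List.filter_append]
  simp

theorem gthProd_snoc (θ : ℝ) (τ : Q → Bool)
    (mids : List (Finset (Finset Q) × (Q → Matrix Bool Bool ℂ)))
    (first : Q → Matrix Bool Bool ℂ) :
    gthProd θ τ (mids ++ [(∅, first)]) = gthProd θ τ mids := by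
  unfold gthProd
  rw [List.map_append, List.prod_append]
  simp

/-- A circuit `pre ++ mid ++ suf` in which the generalized Toffoli gates of `pre` do not touch
the input qubits and `suf` has entangling depth at most two: the signed sum over all inputs of
the probability of the outcome `b` on qubit `q` is at most `3 (sqrt 2)^n` times the product of
the factors of the generalized Toffoli gates of the layers of `mid`. -/
theorem t_signed_sum_many {n : ℕ} (inp : Fin n ↪ Q) (pre mid suf : List (List (TGate Q)))
    (hvp : ∀ l ∈ pre, LayerValid l) (hvm : ∀ l ∈ mid, LayerValid l)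
    (hvs : ∀ l ∈ suf, LayerValid l)
    (hoff : ∀ l ∈ pre, ∀ g ∈ l, g.isRight = true → ∀ j, inp j ∉ g.support)
    (hd : entDepth suf ≤ 2) (θ : ℝ) (hθ0 : 0 < θ) (hθ1 : θ ≤ 1)
    (hθD : 1 / Real.sqrt 2 ≤ θ ^ entDepth mid) (q : Q) (b : Bool) :
    |∑ x : Fin n → Bool, sgn x * tOutProb (pre ++ mid ++ suf) inp q x b| ≤
      3 * (mid.map fun l => ((l.filter fun g => g.isRight).map fun g =>
        gth θ (univ.filter fun j => inp j ∈ g.support).card).prod).prod * Real.sqrt 2 ^ n := by
  obtain ⟨w, Φ, hw, hΦ, hpre⟩ := tRun_pre_form inp pre hvp hoff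
  obtain ⟨mids, hmids, hent, hprod, hmid⟩ := tRun_mid_form inp θ mid hvm
  obtain ⟨pr, last, hlen, _, hpr, hlast, hrun⟩ := tRun_normal_form suf hvs
  obtain ⟨first, v, L1, L2, hfirst, hv', hL1, hL2, hform⟩ :=
    preRun_le_two pr last (hlen.trans_le hd) hpr
  have happ : ∀ ψ : StateVec Q,
      tRun (pre ++ mid ++ suf) ψ = tRun suf (tRun mid (tRun pre ψ)) := by
    intro ψ
    unfold tRun
    rw [List.foldl_append, List.foldl_append]
  unfold tOutProb
  simp only [happ, hpre, hmid, hrun, hform, midRun_snoc]
  have hmids' : ∀ r ∈ mids ++ [((∅ : Finset (Finset Q)), first)],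
      (r.1 : Set (Finset Q)).PairwiseDisjoint id ∧ ∀ p, r.2 p ∈ Matrix.unitaryGroup Bool ℂ := by
    intro r hr
    rcases List.mem_append.mp hr with h | h
    · exact hmids r h
    · rw [List.mem_singleton] at h
      subst h
      refine ⟨?_, hfirst⟩
      simp
  have hθD' : 1 / Real.sqrt 2 ≤ θ ^ entRounds (mids ++ [((∅ : Finset (Finset Q)), first)]) := by
    rw [entRounds_snoc, hent]
    exact hθD
  have h := advice_signed_sum_many inp θ hθ0 hθ1 (mids ++ [(∅, first)]) hmids' hθD'
    v last w L1 L2 Φ hv' hlast hw hL1 hL2 hΦ q b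
  rw [gthProd_snoc, hprod] at h
  calc _ ≤ 3 * ((mid.map fun l => ((l.filter fun g => g.isRight).map fun g =>
        gth θ (univ.filter fun j => inp j ∈ g.support).card).prod).prod * Real.sqrt 2 ^ n) := h
    _ = _ := by ring

/-- Any number of entangling layers before the last two, after a preprocessing of the
ancillas: the parity correlation and the worst-case advantage. -/
theorem depth_many_final {n : ℕ} (inp : Fin n ↪ Q) (pre mid suf : List (List (TGate Q)))
    (hvp : ∀ l ∈ pre, LayerValid l) (hvm : ∀ l ∈ mid, LayerValid l)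
    (hvs : ∀ l ∈ suf, LayerValid l)
    (hoff : ∀ l ∈ pre, ∀ g ∈ l, g.isRight = true → ∀ j, inp j ∉ g.support)
    (hd : entDepth suf ≤ 2) (θ : ℝ) (hθ0 : 0 < θ) (hθ1 : θ ≤ 1)
    (hθD : 1 / Real.sqrt 2 ≤ θ ^ entDepth mid) (q : Q) :
    |tParityCorrelation (pre ++ mid ++ suf) inp q| ≤
        6 * (mid.map fun l => ((l.filter fun g => g.isRight).map fun g =>
          gth θ (univ.filter fun j => inp j ∈ g.support).card).prod).prod / Real.sqrt 2 ^ n ∧
      ∀ ε : ℝ, (∀ x : Fin n → Bool,
          1 / 2 + ε ≤ tOutProb (pre ++ mid ++ suf) inp q x (parity x)) →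
        ε ≤ 3 * (mid.map fun l => ((l.filter fun g => g.isRight).map fun g =>
          gth θ (univ.filter fun j => inp j ∈ g.support).card).prod).prod / Real.sqrt 2 ^ n := by
  have hv : ∀ l ∈ pre ++ mid ++ suf, LayerValid l := by
    intro l hl
    rcases List.mem_append.mp hl with h | h
    · rcases List.mem_append.mp h with h | h
      · exact hvp l h
      · exact hvm l h
    · exact hvs l h
  have h := parity_corr_bound_base
    (3 * (mid.map fun l => ((l.filter fun g => g.isRight).map fun g =>
      gth θ (univ.filter fun j => inp j ∈ g.support).card).prod).prod) (Real.sqrt 2)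
    (fun x b => tOutProb (pre ++ mid ++ suf) inp q x b)
    (fun x => tOutProb_add (pre ++ mid ++ suf) hv inp q x)
    (fun b => t_signed_sum_many inp pre mid suf hvp hvm hvs hoff hd θ hθ0 hθ1 hθD q b)
  have e1 : ∀ F : ℝ, 2 * (3 * F) * Real.sqrt 2 ^ n / 2 ^ n = 6 * F / Real.sqrt 2 ^ n := by
    intro F
    rw [mul_div_assoc, sqrt_two_pow_div]
    ring
  have e2 : ∀ F : ℝ, 3 * F * Real.sqrt 2 ^ n / 2 ^ n = 3 * F / Real.sqrt 2 ^ n := by
    intro F
    rw [mul_div_assoc, sqrt_two_pow_div]
    ring
  rw [e1, e2] at h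
  exact h

end Vale.Agent.Lib.P368
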