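import Vale.Agent.Lib.P368.Adv4.Defs

/-!
# P368, any number of entangling layers before the last two: additive and homogeneous maps, and
the form without rounds
-/

namespace Vale.Agent.Lib.P368

open Finset

variable {Q : Type} [Fintype Q] [DecidableEq Q]

/-- A layer of multi-controlled `Z` gates is additive and homogeneous. -/
theorem lin_czLayer (L : Finset (Finset Q)) : IsLin (fun χ : StateVec Q => czLayer L χ) := by
  constructor
  · intro a b
    funext z
    simp only [czLayer, Pi.add_apply]
    ring
  · intro t a
    funext z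
    simp only [czLayer, Pi.smul_apply, smul_eq_mul]
    ring

/-- A layer of one-qubit matrices is additive and homogeneous. -/
theorem lin_layer (u : Q → Matrix Bool Bool ℂ) :
    IsLin (fun χ : StateVec Q => oneQubitLayer u χ) := by
  constructor
  · intro a b
    funext z
    simp only [oneQubitLayer_apply, Pi.add_apply, mul_add, Finset.sum_add_distrib]
  · intro t a
    funext z
    simp only [oneQubitLayer_apply, Pi.smul_apply, smul_eq_mul, Finset.mul_sum]
    refine Finset.sum_congr rfl (fun w _ => ?_)
    ring

/-- The composition of two additive and homogeneous maps. -/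
theorem lin_comp (F G : StateVec Q → StateVec Q) (hF : IsLin F) (hG : IsLin G) :
    IsLin (fun χ => F (G χ)) := by
  constructor
  · intro a b
    show F (G (a + b)) = F (G a) + F (G b)
    rw [hG.1, hF.1]
  · intro t a
    show F (G (t • a)) = t • F (G a)
    rw [hG.2, hF.2]

/-- The rounds form an additive and homogeneous map. -/
theorem lin_midRun (mids : List (Finset (Finset Q) × (Q → Matrix Bool Bool ℂ))) :
    IsLin (fun χ : StateVec Q => midRun mids χ) := by
  induction mids with
  | nil =>
    constructor
    · intro a b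
      rfl
    · intro t a
      rfl
  | cons r rest ih =>
    have h : (fun χ : StateVec Q => midRun (r :: rest) χ) =
        (fun χ => midRun rest (oneQubitLayer r.2 (czLayer r.1 χ))) := by
      funext χ
      rfl
    rw [h]
    exact lin_comp _ _ ih (lin_comp _ _ (lin_layer r.2) (lin_czLayer r.1))

/-- The rounds followed by a layer of multi-controlled `Z` gates form an additive and
homogeneous map. -/
theorem isLin_czLayer_midRun (L1 : Finset (Finset Q))
    (mids : List (Finset (Finset Q) × (Q → Matrix Bool Bool ℂ))) :
    IsLin (fun χ : StateVec Q => czLayer L1 (midRun mids χ)) :=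
  lin_comp _ _ (lin_czLayer L1) (lin_midRun mids)

/-- A layer `V` of one-qubit matrices in front of `R` is merged into the matrices of the two
sides. -/
theorem gForm_merge (τ : Q → Bool) (εa εb : Q → Bool → Matrix Bool Bool ℂ)
    (R : StateVec Q → StateVec Q) (V : Q → Matrix Bool Bool ℂ) (O : Q → Matrix Bool Bool ℂ)
    (φ ψ : StateVec Q) :
    gForm τ εa εb (fun χ => R (oneQubitLayer V χ)) O φ ψ =
      gForm τ (fun p b => V p * εa p b) (fun p b => V p * εb p b) R O φ ψ := by
  unfold gForm
  refine Finset.sum_congr rfl (fun y _ => ?_)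
  show ((wprod τ y : ℝ) : ℂ) *
      ip (R (oneQubitLayer V (oneQubitLayer (fun p => εa p (y p)) φ)))
        (oneQubitLayer O (R (oneQubitLayer V (oneQubitLayer (fun p => εb p (y p)) ψ)))) = _
  rw [oneQubitLayer_comp, oneQubitLayer_comp]

/-- Admissible data stay admissible after multiplication by one-qubit unitaries. -/
theorem adm2_mul (τ : Q → Bool) (εa εb : Q → Bool → Matrix Bool Bool ℂ)
    (V : Q → Matrix Bool Bool ℂ) (hV : ∀ p, V p ∈ Matrix.unitaryGroup Bool ℂ)
    (hadm : Adm2 τ εa εb) :
    Adm2 τ (fun p b => V p * εa p b) (fun p b => V p * εb p b) := by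
  intro p
  constructor
  · intro hp
    obtain ⟨u, hu, ha, hb⟩ := (hadm p).1 hp
    refine ⟨V p * u, mul_mem (hV p) hu, fun b => ?_, fun b => ?_⟩
    · show V p * εa p b = colMat (V p * u) b
      rw [ha b, colMat_mul]
    · show V p * εb p b = colMat (V p * u) b
      rw [hb b, colMat_mul]
  · intro hp
    obtain ⟨ha, hb⟩ := (hadm p).2 hp
    exact ⟨isContr_mul _ _ (isContr_of_unitary _ (hV p)) ha,
      isContr_mul _ _ (isContr_of_unitary _ (hV p)) hb⟩

/-- Without rounds the form is a signed form through one layer, so it is bounded by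
`sqrt 2 ^ k` times the norms of the two vectors, `k` the number of flagged qubits. -/
theorem gForm_base (τ : Q → Bool) (εa εb : Q → Bool → Matrix Bool Bool ℂ)
    (L1 : Finset (Finset Q)) (m : Q → Matrix Bool Bool ℂ)
    (hL1 : (L1 : Set (Finset Q)).PairwiseDisjoint id)
    (hm : ∀ p, IsRow (m p) ∨ m p ∈ Matrix.unitaryGroup Bool ℂ)
    (hadm : Adm2 τ εa εb) (φ ψ : StateVec Q) :
    ‖gForm τ εa εb (fun χ => czLayer L1 χ) (fun p => (m p).conjTranspose * m p) φ ψ‖ ≤
      Real.sqrt 2 ^ (univ.filter fun p => τ p = true).card *
        (Real.sqrt (normSqSum φ) * Real.sqrt (normSqSum ψ)) := by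
  have e : gForm τ εa εb (fun χ => czLayer L1 χ) (fun p => (m p).conjTranspose * m p) φ ψ =
      tForm τ εa εb ∅ (fun _ => 1) L1 (fun p => (m p).conjTranspose * m p) φ ψ := by
    unfold gForm tForm
    refine Finset.sum_congr rfl (fun y _ => ?_)
    rw [czLayer_empty, czLayer_empty, oneQubitLayer_one, oneQubitLayer_one]
  rw [e]
  exact tForm_base τ εa εb (fun _ => 1) L1 m (fun _ => one_mem _) hL1 hm hadm φ ψ

end Vale.Agent.Lib.P368
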