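import Vale.Agent.Lib.P368.Adv4.BoundG

/-!
# P368, many entangling layers: the signed sum of the outcome probabilities
-/

namespace Vale.Agent.Lib.P368

open Finset

variable {Q : Type} [Fintype Q] [DecidableEq Q]

/-- The signed sum of the squared norms of one contracted branch is a value of `gForm`, hence
at most the product of the factors times the power `n` of `sqrt 2`, for a vector of norm at
most one. -/
theorem mn_bound {n : ℕ} (inp : Fin n ↪ Q) (θ : ℝ) (hθ0 : 0 < θ) (hθ1 : θ ≤ 1)
    (mids : List (Finset (Finset Q) × (Q → Matrix Bool Bool ℂ)))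
    (hmids : ∀ r ∈ mids, (r.1 : Set (Finset Q)).PairwiseDisjoint id ∧
      ∀ p, r.2 p ∈ Matrix.unitaryGroup Bool ℂ)
    (hθD : 1 / Real.sqrt 2 ≤ θ ^ entRounds mids)
    (w : Q → Matrix Bool Bool ℂ) (L1 : Finset (Finset Q)) (Φ : StateVec Q)
    (hw : ∀ p, w p ∈ Matrix.unitaryGroup Bool ℂ)
    (hL1 : (L1 : Set (Finset Q)).PairwiseDisjoint id) (hΦ : normSqSum Φ ≤ 1)
    (m : Q → Matrix Bool Bool ℂ)
    (hm : ∀ p, IsRow (m p) ∨ m p ∈ Matrix.unitaryGroup Bool ℂ) :
    |∑ y : Q → Bool, (∏ p, wt (inTau inp p) (y p)) *
      normSqSum (oneQubitLayer m (czLayer L1 (midRun mids (oneQubitLayer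
        (fun p => if inTau inp p = true then colMat (w p) (y p) else 1) Φ))))| ≤
      gthProd θ (inTau inp) mids * Real.sqrt 2 ^ n := by
  have e : ((∑ y : Q → Bool, (∏ p, wt (inTau inp p) (y p)) *
      normSqSum (oneQubitLayer m (czLayer L1 (midRun mids (oneQubitLayer
        (fun p => if inTau inp p = true then colMat (w p) (y p) else 1) Φ)))) : ℝ) : ℂ)
      = gForm (inTau inp)
          (fun p c => if inTau inp p = true then colMat (w p) c else 1)
          (fun p c => if inTau inp p = true then colMat (w p) c else 1)
          (fun χ => czLayer L1 (midRun mids χ))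
          (fun p => (m p).conjTranspose * m p) Φ Φ := by
    unfold gForm
    rw [Complex.ofReal_sum]
    refine Finset.sum_congr rfl fun y _ => ?_
    rw [Complex.ofReal_mul, normSqSum_eq_expVal]
    rfl
  have hadm : Adm2 (inTau inp)
      (fun p c => if inTau inp p = true then colMat (w p) c else 1)
      (fun p c => if inTau inp p = true then colMat (w p) c else 1) := by
    intro p
    constructor
    · intro hp
      have hc : ∀ c, (if inTau inp p = true then colMat (w p) c else 1) = colMat (w p) c := by
        intro c
        rw [if_pos hp]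
      exact ⟨w p, hw p, hc, hc⟩
    · intro hp
      have hc : IsContr (if inTau inp p = true then colMat (w p) false else 1) := by
        rw [hp, if_neg Bool.false_ne_true]
        exact isContr_one
      exact ⟨hc, hc⟩
  have hb := gForm_bound θ hθ0 hθ1 L1 m hL1 hm mids hmids hθD (inTau inp)
    (fun p c => if inTau inp p = true then colMat (w p) c else 1)
    (fun p c => if inTau inp p = true then colMat (w p) c else 1)
    hadm Φ Φ
  rw [← e, Complex.norm_real, Real.norm_eq_abs, card_inTau,
    Real.mul_self_sqrt (gd_normSqSum_nonneg Φ)] at hb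
  have hgp : 0 ≤ gthProd θ (inTau inp) mids := gthProd_nonneg θ hθ0.le _ _
  have hg : 0 ≤ gthProd θ (inTau inp) mids * Real.sqrt 2 ^ n :=
    mul_nonneg hgp (by positivity)
  calc |∑ y : Q → Bool, (∏ p, wt (inTau inp p) (y p)) *
      normSqSum (oneQubitLayer m (czLayer L1 (midRun mids (oneQubitLayer
        (fun p => if inTau inp p = true then colMat (w p) (y p) else 1) Φ))))|
      ≤ gthProd θ (inTau inp) mids * Real.sqrt 2 ^ n * normSqSum Φ := hb
    _ ≤ gthProd θ (inTau inp) mids * Real.sqrt 2 ^ n * 1 := mul_le_mul_of_nonneg_left hΦ hg
    _ = gthProd θ (inTau inp) mids * Real.sqrt 2 ^ n := mul_one _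

/-- The same bound with the sum over the inputs `x` located on the input qubits. -/
theorem mn_bound_x {n : ℕ} (inp : Fin n ↪ Q) (θ : ℝ) (hθ0 : 0 < θ) (hθ1 : θ ≤ 1)
    (mids : List (Finset (Finset Q) × (Q → Matrix Bool Bool ℂ)))
    (hmids : ∀ r ∈ mids, (r.1 : Set (Finset Q)).PairwiseDisjoint id ∧
      ∀ p, r.2 p ∈ Matrix.unitaryGroup Bool ℂ)
    (hθD : 1 / Real.sqrt 2 ≤ θ ^ entRounds mids)
    (w : Q → Matrix Bool Bool ℂ) (L1 : Finset (Finset Q)) (Φ : StateVec Q)
    (hw : ∀ p, w p ∈ Matrix.unitaryGroup Bool ℂ)
    (hL1 : (L1 : Set (Finset Q)).PairwiseDisjoint id) (hΦ : normSqSum Φ ≤ 1)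
    (m : Q → Matrix Bool Bool ℂ)
    (hm : ∀ p, IsRow (m p) ∨ m p ∈ Matrix.unitaryGroup Bool ℂ) :
    |∑ x : Fin n → Bool, sgn x *
      normSqSum (oneQubitLayer m (czLayer L1 (midRun mids (oneQubitLayer
        (fun p => if inTau inp p = true then
          colMat (w p) (Function.extend inp x (fun _ => false) p) else 1) Φ))))| ≤
      gthProd θ (inTau inp) mids * Real.sqrt 2 ^ n := by
  have h := sum_sgn_extend inp (fun y : Q → Bool =>
    normSqSum (oneQubitLayer m (czLayer L1 (midRun mids (oneQubitLayer
      (fun p => if inTau inp p = true then colMat (w p) (y p) else 1) Φ)))))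
  have hb := mn_bound inp θ hθ0 hθ1 mids hmids hθD w L1 Φ hw hL1 hΦ m hm
  rw [← h] at hb
  exact hb

/-- Rounds of multi-controlled `Z` gates and one-qubit unitaries, then two more layers of
multi-controlled `Z` gates with one-qubit unitaries around them, applied to the states
`Λ_x Φ`: the input qubit `p` carries the column `x p` of the unitary `w p`, and `Φ` is any
vector of norm at most one.  The signed sum over the inputs of the probability of the outcome
`b` on qubit `q` is at most `3 (sqrt 2)^n` times the product of the factors of the gates of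
the rounds. -/
theorem advice_signed_sum_many {n : ℕ} (inp : Fin n ↪ Q) (θ : ℝ) (hθ0 : 0 < θ) (hθ1 : θ ≤ 1)
    (mids : List (Finset (Finset Q) × (Q → Matrix Bool Bool ℂ)))
    (hmids : ∀ r ∈ mids, (r.1 : Set (Finset Q)).PairwiseDisjoint id ∧
      ∀ p, r.2 p ∈ Matrix.unitaryGroup Bool ℂ)
    (hθD : 1 / Real.sqrt 2 ≤ θ ^ entRounds mids)
    (v last w : Q → Matrix Bool Bool ℂ) (L1 L2 : Finset (Finset Q)) (Φ : StateVec Q)
    (hv : ∀ p, v p ∈ Matrix.unitaryGroup Bool ℂ)
    (hlast : ∀ p, last p ∈ Matrix.unitaryGroup Bool ℂ)
    (hw : ∀ p, w p ∈ Matrix.unitaryGroup Bool ℂ)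
    (hL1 : (L1 : Set (Finset Q)).PairwiseDisjoint id)
    (hL2 : (L2 : Set (Finset Q)).PairwiseDisjoint id) (hΦ : normSqSum Φ ≤ 1) (q : Q) (b : Bool) :
    |∑ x : Fin n → Bool, sgn x * measProb (oneQubitLayer last (oneQubitLayer (fun _ => 1)
      (czLayer L2 (oneQubitLayer v (czLayer L1 (midRun mids
        (oneQubitLayer (fun p => if inTau inp p = true then
          colMat (w p) (Function.extend inp x (fun _ => false) p) else 1) Φ))))))) q b| ≤
      3 * (gthProd θ (inTau inp) mids * Real.sqrt 2 ^ n) := by
  obtain ⟨B', r', hr', hmeas⟩ := measProb_depth_two L2 hL2 (last q) q b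
  have hrow : Complex.normSq (last q b false) + Complex.normSq (last q b true) = 1 :=
    unitary_row _ (hlast q) b
  have hrow' : Complex.normSq (r' false) + Complex.normSq (r' true) ≤ 1 := by
    rw [hr' false, hr' true]
    exact le_of_eq hrow
  have hc0 : ∀ p, IsRow ((if p = q then rowMat b (last q b) else 1) * v p) ∨
      (if p = q then rowMat b (last q b) else 1) * v p ∈ Matrix.unitaryGroup Bool ℂ := by
    intro p
    split_ifs
    · exact Or.inl (isRow_mul_unitary _ _ (isRow_rowMat b _ (le_of_eq hrow)) (hv p))
    · right
      rw [one_mul]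
      exact hv p
  have hc1 : ∀ p, IsRow ((if p = q then rowMat b (last q b) else
      if p ∈ B' then projOne else 1) * v p) ∨
      (if p = q then rowMat b (last q b) else
        if p ∈ B' then projOne else 1) * v p ∈ Matrix.unitaryGroup Bool ℂ := by
    intro p
    split_ifs
    · exact Or.inl (isRow_mul_unitary _ _ (isRow_rowMat b _ (le_of_eq hrow)) (hv p))
    · exact Or.inl (isRow_mul_unitary _ _ isRow_projOne (hv p))
    · right
      rw [one_mul]
      exact hv p
  have hc2 : ∀ p, IsRow ((if p = q then rowMat b r' else
      if p ∈ B' then projOne else 1) * v p) ∨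
      (if p = q then rowMat b r' else
        if p ∈ B' then projOne else 1) * v p ∈ Matrix.unitaryGroup Bool ℂ := by
    intro p
    split_ifs
    · exact Or.inl (isRow_mul_unitary _ _ (isRow_rowMat b _ hrow') (hv p))
    · exact Or.inl (isRow_mul_unitary _ _ isRow_projOne (hv p))
    · right
      rw [one_mul]
      exact hv p
  have hterm : ∀ x : Fin n → Bool, measProb (oneQubitLayer last (oneQubitLayer (fun _ => 1)
      (czLayer L2 (oneQubitLayer v (czLayer L1 (midRun mids
        (oneQubitLayer (fun p => if inTau inp p = true then
          colMat (w p) (Function.extend inp x (fun _ => false) p) else 1) Φ))))))) q b =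
      normSqSum (oneQubitLayer (fun p => (if p = q then rowMat b (last q b) else 1) * v p)
        (czLayer L1 (midRun mids (oneQubitLayer
          (fun p => if inTau inp p = true then
            colMat (w p) (Function.extend inp x (fun _ => false) p) else 1) Φ))))
      - normSqSum (oneQubitLayer (fun p => (if p = q then rowMat b (last q b) else
          if p ∈ B' then projOne else 1) * v p)
        (czLayer L1 (midRun mids (oneQubitLayer
          (fun p => if inTau inp p = true then
            colMat (w p) (Function.extend inp x (fun _ => false) p) else 1) Φ))))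
      + normSqSum (oneQubitLayer (fun p => (if p = q then rowMat b r' else
          if p ∈ B' then projOne else 1) * v p)
        (czLayer L1 (midRun mids (oneQubitLayer
          (fun p => if inTau inp p = true then
            colMat (w p) (Function.extend inp x (fun _ => false) p) else 1) Φ)))) := by
    intro x
    rw [oneQubitLayer_one]
    have h1 := measProb_oneQubitLayer_local last hlast
      (czLayer L2 (oneQubitLayer v (czLayer L1 (midRun mids (oneQubitLayer
        (fun p => if inTau inp p = true then
            colMat (w p) (Function.extend inp x (fun _ => false) p) else 1) Φ))))) q b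
    rw [h1]
    have h2 := hmeas (oneQubitLayer v (czLayer L1 (midRun mids (oneQubitLayer
        (fun p => if inTau inp p = true then
            colMat (w p) (Function.extend inp x (fun _ => false) p) else 1) Φ))))
    rw [h2, oneQubitLayer_comp, oneQubitLayer_comp, oneQubitLayer_comp]
  have b0 := mn_bound_x inp θ hθ0 hθ1 mids hmids hθD w L1 Φ hw hL1 hΦ _ hc0
  have b1 := mn_bound_x inp θ hθ0 hθ1 mids hmids hθD w L1 Φ hw hL1 hΦ _ hc1
  have b2 := mn_bound_x inp θ hθ0 hθ1 mids hmids hθD w L1 Φ hw hL1 hΦ _ hc2
  have hsum : (∑ x : Fin n → Bool, sgn x * measProb (oneQubitLayer last (oneQubitLayer (fun _ => 1)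
      (czLayer L2 (oneQubitLayer v (czLayer L1 (midRun mids
        (oneQubitLayer (fun p => if inTau inp p = true then
          colMat (w p) (Function.extend inp x (fun _ => false) p) else 1) Φ))))))) q b) =
      (∑ x : Fin n → Bool, sgn x *
        normSqSum (oneQubitLayer (fun p => (if p = q then rowMat b (last q b) else 1) * v p)
        (czLayer L1 (midRun mids (oneQubitLayer
          (fun p => if inTau inp p = true then
            colMat (w p) (Function.extend inp x (fun _ => false) p) else 1) Φ)))))
      - (∑ x : Fin n → Bool, sgn x *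
        normSqSum (oneQubitLayer (fun p => (if p = q then rowMat b (last q b) else
          if p ∈ B' then projOne else 1) * v p)
        (czLayer L1 (midRun mids (oneQubitLayer
          (fun p => if inTau inp p = true then
            colMat (w p) (Function.extend inp x (fun _ => false) p) else 1) Φ)))))
      + (∑ x : Fin n → Bool, sgn x *
        normSqSum (oneQubitLayer (fun p => (if p = q then rowMat b r' else
          if p ∈ B' then projOne else 1) * v p)
        (czLayer L1 (midRun mids (oneQubitLayer
          (fun p => if inTau inp p = true then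
            colMat (w p) (Function.extend inp x (fun _ => false) p) else 1) Φ))))) := by
    rw [← Finset.sum_sub_distrib, ← Finset.sum_add_distrib]
    refine Finset.sum_congr rfl fun x _ => ?_
    rw [hterm]
    ring
  rw [hsum]
  have t1 := abs_add_le
    ((∑ x : Fin n → Bool, sgn x *
        normSqSum (oneQubitLayer (fun p => (if p = q then rowMat b (last q b) else 1) * v p)
        (czLayer L1 (midRun mids (oneQubitLayer
          (fun p => if inTau inp p = true then
            colMat (w p) (Function.extend inp x (fun _ => false) p) else 1) Φ)))))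
      - (∑ x : Fin n → Bool, sgn x *
        normSqSum (oneQubitLayer (fun p => (if p = q then rowMat b (last q b) else
          if p ∈ B' then projOne else 1) * v p)
        (czLayer L1 (midRun mids (oneQubitLayer
          (fun p => if inTau inp p = true then
            colMat (w p) (Function.extend inp x (fun _ => false) p) else 1) Φ))))))
    (∑ x : Fin n → Bool, sgn x *
        normSqSum (oneQubitLayer (fun p => (if p = q then rowMat b r' else
          if p ∈ B' then projOne else 1) * v p)
        (czLayer L1 (midRun mids (oneQubitLayer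
          (fun p => if inTau inp p = true then
            colMat (w p) (Function.extend inp x (fun _ => false) p) else 1) Φ)))))
  have t2 := abs_sub
    (∑ x : Fin n → Bool, sgn x *
        normSqSum (oneQubitLayer (fun p => (if p = q then rowMat b (last q b) else 1) * v p)
        (czLayer L1 (midRun mids (oneQubitLayer
          (fun p => if inTau inp p = true then
            colMat (w p) (Function.extend inp x (fun _ => false) p) else 1) Φ)))))
    (∑ x : Fin n → Bool, sgn x *
        normSqSum (oneQubitLayer (fun p => (if p = q then rowMat b (last q b) else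
          if p ∈ B' then projOne else 1) * v p)
        (czLayer L1 (midRun mids (oneQubitLayer
          (fun p => if inTau inp p = true then
            colMat (w p) (Function.extend inp x (fun _ => false) p) else 1) Φ)))))
  linarith

end Vale.Agent.Lib.P368
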