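import Vale.Agent.Lib.P368.Adv4.Final4

/-!
# P368, many entangling layers: circuits whose gates before the last two entangling layers
touch no input qubit or many input qubits
-/

namespace Vale.Agent.Lib.P368

open Finset

variable {Q : Type} [Fintype Q] [DecidableEq Q]

/-- The choice of the parameter: a number in `(0, 1]` whose power with exponent `D` is at least
`1 / sqrt 2` and whose power with exponent `4 D` is at most `1 / 4` (when `D ≥ 1`). -/
theorem wd_theta (D : ℕ) : ∃ θ : ℝ, 0 < θ ∧ θ ≤ 1 ∧ 1 / Real.sqrt 2 ≤ θ ^ D ∧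
    (1 ≤ D → θ ^ (4 * D) ≤ 1 / 4) := by
  have hs1 : (1:ℝ) ≤ Real.sqrt 2 := by
    have h := Real.sqrt_le_sqrt (show (1:ℝ) ≤ 2 by norm_num)
    rwa [Real.sqrt_one] at h
  have hspos : (0:ℝ) < Real.sqrt 2 := by positivity
  by_cases hD : D = 0
  · subst hD
    refine ⟨1, one_pos, le_refl 1, ?_, fun h => absurd h (by norm_num)⟩
    rw [pow_zero, div_le_one hspos]
    exact hs1
  · obtain ⟨θ, hθ⟩ : ∃ θ : ℝ, θ = ((1:ℝ) / 2) ^ ((1:ℝ) / (2 * (D:ℝ))) := ⟨_, rfl⟩
    have hDpos : (0:ℝ) < (D:ℝ) := by exact_mod_cast Nat.pos_of_ne_zero hD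
    have hθ0 : 0 < θ := by
      rw [hθ]
      exact Real.rpow_pos_of_pos (by norm_num) _
    have hθ1 : θ ≤ 1 := by
      rw [hθ]
      exact Real.rpow_le_one (by norm_num) (by norm_num) (by positivity)
    have hpow : θ ^ (2 * D) = 1 / 2 := by
      rw [hθ, ← Real.rpow_natCast, ← Real.rpow_mul (by norm_num : (0:ℝ) ≤ 1 / 2)]
      have e : (1:ℝ) / (2 * (D:ℝ)) * ((2 * D : ℕ) : ℝ) = 1 := by
        push_cast
        field_simp
      rw [e, Real.rpow_one]
    refine ⟨θ, hθ0, hθ1, ?_, fun _ => ?_⟩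
    · have h1 : (1 / Real.sqrt 2) ^ 2 ≤ (θ ^ D) ^ 2 := by
        rw [div_pow, one_pow, Real.sq_sqrt (by norm_num : (0:ℝ) ≤ 2), ← pow_mul, mul_comm D 2,
          hpow]
      exact (pow_le_pow_iff_left₀ (by positivity) (by positivity) two_ne_zero).mp h1
    · have e : 4 * D = 2 * D * 2 := by ring
      rw [e, pow_mul, hpow]
      norm_num

/-- One gate with no flagged qubit or at least `4 D` flagged qubits. -/
theorem wd_gate (θ : ℝ) (hθ0 : 0 < θ) (hθ1 : θ ≤ 1) (D : ℕ)
    (hθ4 : 1 ≤ D → θ ^ (4 * D) ≤ 1 / 4) (k : ℕ) (hk : k = 0 ∨ 4 * D ≤ k) :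
    gth θ k ^ (4 * D) ≤ 3 ^ k := by
  by_cases hD : D = 0
  · subst hD
    rw [mul_zero, pow_zero]
    exact one_le_pow₀ (by norm_num)
  · have hD1 : 1 ≤ D := Nat.one_le_iff_ne_zero.mpr hD
    by_cases hk0 : k = 0
    · subst hk0
      have h0 : gth θ 0 = 1 := by simp [gth]
      rw [h0, one_pow, pow_zero]
    · have hk4 : 4 * D ≤ k := by
        rcases hk with h | h
        · exact absurd h hk0
        · exact h
      have e : gth θ k = 1 + 8 * θ ^ k := by
        unfold gth
        rw [if_neg hk0]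
      have h1 : θ ^ k ≤ θ ^ (4 * D) := pow_le_pow_of_le_one hθ0.le hθ1 hk4
      have h2 := hθ4 hD1
      have h3 : gth θ k ≤ 3 := by
        rw [e]
        linarith
      have h4 : 0 ≤ gth θ k := le_trans zero_le_one (one_le_gth θ hθ0.le k)
      calc gth θ k ^ (4 * D) ≤ 3 ^ (4 * D) := pow_le_pow_left₀ h4 h3 _
        _ ≤ 3 ^ k := pow_le_pow_right₀ (by norm_num) hk4

omit [Fintype Q] in
/-- The product of the factors of a list of gates is nonnegative. -/
theorem wd_prod_nonneg {n : ℕ} (inp : Fin n ↪ Q) (θ : ℝ) (hθ0 : 0 < θ) (l : List (TGate Q)) :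
    0 ≤ (l.map fun g => gth θ (univ.filter fun j => inp j ∈ g.support).card).prod := by
  apply List.prod_nonneg
  intro x hx
  obtain ⟨g, _, rfl⟩ := List.mem_map.mp hx
  exact le_trans zero_le_one (one_le_gth θ hθ0.le _)

omit [Fintype Q] in
/-- A list of gates with pairwise disjoint supports. -/
theorem wd_list {n : ℕ} (inp : Fin n ↪ Q) (θ : ℝ) (hθ0 : 0 < θ) (hθ1 : θ ≤ 1) (D : ℕ)
    (hθ4 : 1 ≤ D → θ ^ (4 * D) ≤ 1 / 4) (l : List (TGate Q))
    (hpw : l.Pairwise fun g g' => Disjoint g.support g'.support)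
    (hw : ∀ g ∈ l, (univ.filter fun j => inp j ∈ g.support).card = 0 ∨
      4 * D ≤ (univ.filter fun j => inp j ∈ g.support).card) :
    ∃ U : Finset (Fin n), (∀ j ∈ U, ∃ g ∈ l, inp j ∈ g.support) ∧
      ((l.map fun g => gth θ (univ.filter fun j => inp j ∈ g.support).card).prod) ^ (4 * D)
        ≤ 3 ^ U.card := by
  induction l with
  | nil =>
    refine ⟨∅, fun j hj => absurd hj (Finset.notMem_empty j), ?_⟩
    simp
  | cons g l ih =>
    rw [List.pairwise_cons] at hpw
    obtain ⟨U, hU, hle⟩ := ih hpw.2 (fun g' hg' => hw g' (List.mem_cons_of_mem _ hg'))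
    have hdisj : Disjoint (univ.filter fun j => inp j ∈ g.support) U := by
      rw [Finset.disjoint_left]
      intro j hj hjU
      obtain ⟨g', hg', hjg'⟩ := hU j hjU
      have hd := hpw.1 g' hg'
      exact (Finset.disjoint_left.mp hd) (Finset.mem_filter.mp hj).2 hjg'
    refine ⟨(univ.filter fun j => inp j ∈ g.support) ∪ U, ?_, ?_⟩
    · intro j hj
      rcases Finset.mem_union.mp hj with h | h
      · exact ⟨g, List.mem_cons_self, (Finset.mem_filter.mp h).2⟩
      · obtain ⟨g', hg', hjg'⟩ := hU j h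
        exact ⟨g', List.mem_cons_of_mem _ hg', hjg'⟩
    · rw [List.map_cons, List.prod_cons, mul_pow, Finset.card_union_of_disjoint hdisj, pow_add]
      have hg := wd_gate θ hθ0 hθ1 D hθ4 _ (hw g List.mem_cons_self)
      have hnn : 0 ≤ ((l.map fun g =>
          gth θ (univ.filter fun j => inp j ∈ g.support).card).prod) ^ (4 * D) :=
        pow_nonneg (wd_prod_nonneg inp θ hθ0 l) _
      exact mul_le_mul hg hle hnn (by positivity)

omit [Fintype Q] in
/-- One valid layer. -/
theorem wd_layer {n : ℕ} (inp : Fin n ↪ Q) (θ : ℝ) (hθ0 : 0 < θ) (hθ1 : θ ≤ 1) (D : ℕ)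
    (hθ4 : 1 ≤ D → θ ^ (4 * D) ≤ 1 / 4) (l : List (TGate Q)) (hv : LayerValid l)
    (hw : ∀ g ∈ l, g.isRight = true →
      (univ.filter fun j => inp j ∈ g.support).card = 0 ∨
        4 * D ≤ (univ.filter fun j => inp j ∈ g.support).card) :
    0 ≤ ((l.filter fun g => g.isRight).map fun g =>
        gth θ (univ.filter fun j => inp j ∈ g.support).card).prod ∧
      (((l.filter fun g => g.isRight).map fun g =>
        gth θ (univ.filter fun j => inp j ∈ g.support).card).prod) ^ (4 * D) ≤ 3 ^ n ∧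
      (isEnt l = false → ((l.filter fun g => g.isRight).map fun g =>
        gth θ (univ.filter fun j => inp j ∈ g.support).card).prod = 1) := by
  refine ⟨wd_prod_nonneg inp θ hθ0 _, ?_, ?_⟩
  · obtain ⟨U, _, hle⟩ := wd_list inp θ hθ0 hθ1 D hθ4 (l.filter fun g => g.isRight)
      (hv.2.filter _)
      (fun g hg => hw g (List.mem_filter.mp hg).1 (List.mem_filter.mp hg).2)
    refine hle.trans (pow_le_pow_right₀ (by norm_num) ?_)
    have h := Finset.card_le_univ U
    rwa [Fintype.card_fin] at h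
  · intro hent
    have hnil : (l.filter fun g => g.isRight) = [] := by
      rw [List.filter_eq_nil_iff]
      intro g hg
      unfold isEnt at hent
      rw [List.any_eq_false] at hent
      exact hent g hg
    rw [hnil]
    simp

omit [Fintype Q] in
/-- All layers: the exponent `4 D` is fixed, the bound counts the entangling layers. -/
theorem wd_mid {n : ℕ} (inp : Fin n ↪ Q) (θ : ℝ) (hθ0 : 0 < θ) (hθ1 : θ ≤ 1) (D : ℕ)
    (hθ4 : 1 ≤ D → θ ^ (4 * D) ≤ 1 / 4) (M : List (List (TGate Q)))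
    (hv : ∀ l ∈ M, LayerValid l)
    (hw : ∀ l ∈ M, ∀ g ∈ l, g.isRight = true →
      (univ.filter fun j => inp j ∈ g.support).card = 0 ∨
        4 * D ≤ (univ.filter fun j => inp j ∈ g.support).card) :
    0 ≤ (M.map fun l => ((l.filter fun g => g.isRight).map fun g =>
        gth θ (univ.filter fun j => inp j ∈ g.support).card).prod).prod ∧
      ((M.map fun l => ((l.filter fun g => g.isRight).map fun g =>
        gth θ (univ.filter fun j => inp j ∈ g.support).card).prod).prod) ^ (4 * D)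
          ≤ ((3:ℝ) ^ n) ^ entDepth M ∧
      (entDepth M = 0 → (M.map fun l => ((l.filter fun g => g.isRight).map fun g =>
        gth θ (univ.filter fun j => inp j ∈ g.support).card).prod).prod = 1) := by
  induction M with
  | nil => simp [entDepth]
  | cons l M ih =>
    obtain ⟨h1, h2, h3⟩ := ih (fun l' hl' => hv l' (List.mem_cons_of_mem _ hl'))
      (fun l' hl' => hw l' (List.mem_cons_of_mem _ hl'))
    obtain ⟨p1, p2, p3⟩ := wd_layer inp θ hθ0 hθ1 D hθ4 l (hv l List.mem_cons_self)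
      (hw l List.mem_cons_self)
    rw [List.map_cons, List.prod_cons]
    by_cases hent : isEnt l = true
    · have he : entDepth (l :: M) = entDepth M + 1 := by
        simp [entDepth, hent]
      refine ⟨mul_nonneg p1 h1, ?_, fun h0 => ?_⟩
      · rw [he, mul_pow]
        calc (((l.filter fun g => g.isRight).map fun g =>
              gth θ (univ.filter fun j => inp j ∈ g.support).card).prod) ^ (4 * D)
            * ((M.map fun l => ((l.filter fun g => g.isRight).map fun g =>
              gth θ (univ.filter fun j => inp j ∈ g.support).card).prod).prod) ^ (4 * D)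
            ≤ (3:ℝ) ^ n * ((3:ℝ) ^ n) ^ entDepth M :=
              mul_le_mul p2 h2 (pow_nonneg h1 _) (by positivity)
          _ = ((3:ℝ) ^ n) ^ (entDepth M + 1) := by ring
      · rw [he] at h0
        exact absurd h0 (Nat.succ_ne_zero _)
    · have hent' : isEnt l = false := by simpa using hent
      have he : entDepth (l :: M) = entDepth M := by
        simp [entDepth, hent']
      rw [he, p3 hent', one_mul]
      exact ⟨h1, h2, h3⟩

/-- A circuit `pre ++ mid ++ suf` in which the generalized Toffoli gates of `pre` do not touch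
the input qubits, `suf` has entangling depth at most two, and every generalized Toffoli gate
of `mid` acts on no input qubit or on at least `4 D` input qubits, `D` the entangling depth of
`mid`: the fourth power of the parity correlation is at most `6^4 (3/4)^n`. -/
theorem depth_many_wide {n : ℕ} (inp : Fin n ↪ Q) (pre mid suf : List (List (TGate Q)))
    (hvp : ∀ l ∈ pre, LayerValid l) (hvm : ∀ l ∈ mid, LayerValid l)
    (hvs : ∀ l ∈ suf, LayerValid l)
    (hoff : ∀ l ∈ pre, ∀ g ∈ l, g.isRight = true → ∀ j, inp j ∉ g.support)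
    (hd : entDepth suf ≤ 2)
    (hwide : ∀ l ∈ mid, ∀ g ∈ l, g.isRight = true →
      (univ.filter fun j => inp j ∈ g.support).card = 0 ∨
        4 * entDepth mid ≤ (univ.filter fun j => inp j ∈ g.support).card) (q : Q) :
    |tParityCorrelation (pre ++ mid ++ suf) inp q| ^ 4 ≤ 1296 * (3 / 4 : ℝ) ^ n := by
  obtain ⟨θ, hθ0, hθ1, hθD, hθ4⟩ := wd_theta (entDepth mid)
  have hfin := (depth_many_final inp pre mid suf hvp hvm hvs hoff hd θ hθ0 hθ1 hθD q).1
  obtain ⟨hF0, hF1, hF2⟩ := wd_mid inp θ hθ0 hθ1 (entDepth mid) hθ4 mid hvm hwide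
  obtain ⟨F, hF⟩ : ∃ F : ℝ, F = (mid.map fun l => ((l.filter fun g => g.isRight).map fun g =>
      gth θ (univ.filter fun j => inp j ∈ g.support).card).prod).prod := ⟨_, rfl⟩
  rw [← hF] at hfin hF0 hF1 hF2
  have hF4 : F ^ 4 ≤ 3 ^ n := by
    by_cases hD : entDepth mid = 0
    · rw [hF2 hD, one_pow]
      exact one_le_pow₀ (by norm_num)
    · have h : (F ^ 4) ^ entDepth mid ≤ ((3:ℝ) ^ n) ^ entDepth mid := by
        rw [← pow_mul]
        exact hF1
      exact (pow_le_pow_iff_left₀ (by positivity) (by positivity) hD).mp h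
  have hs4 : (Real.sqrt 2 ^ n) ^ 4 = 4 ^ n := by
    rw [← pow_mul, mul_comm, pow_mul]
    have h4 : Real.sqrt 2 ^ 4 = 4 := by
      have h2 : Real.sqrt 2 ^ 2 = 2 := Real.sq_sqrt (by norm_num)
      calc Real.sqrt 2 ^ 4 = (Real.sqrt 2 ^ 2) ^ 2 := by ring
        _ = 4 := by
          rw [h2]
          norm_num
    rw [h4]
  have h1 : |tParityCorrelation (pre ++ mid ++ suf) inp q| ^ 4
      ≤ (6 * F / Real.sqrt 2 ^ n) ^ 4 := pow_le_pow_left₀ (abs_nonneg _) hfin 4
  have h2 : (6 * F / Real.sqrt 2 ^ n) ^ 4 = 1296 * F ^ 4 / 4 ^ n := by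
    rw [div_pow, mul_pow, hs4]
    norm_num
  have h3 : 1296 * F ^ 4 / 4 ^ n ≤ 1296 * (3 / 4 : ℝ) ^ n := by
    rw [div_pow, ← mul_div_assoc, div_le_div_iff_of_pos_right (by positivity)]
    linarith
  calc |tParityCorrelation (pre ++ mid ++ suf) inp q| ^ 4
      ≤ (6 * F / Real.sqrt 2 ^ n) ^ 4 := h1
    _ = 1296 * F ^ 4 / 4 ^ n := h2
    _ ≤ 1296 * (3 / 4 : ℝ) ^ n := h3

end Vale.Agent.Lib.P368
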